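import Vale.Agent.Q017.Defs

/-!
# Congruences between elliptic curves
-/

open NumberField IsDedekindDomain Vale.Agent.Q017
open scoped Classical

namespace Vale.Agent.Q017A

universe u

variable {K : Type u} [Field K]

/-- the `3`-torsion or the `5`-torsion is absolutely irreducible over the cyclotomic field -/
def Big (E : WeierstrassCurve K) : Prop := AbsIrr E 3 (Cyc K 3) ∨ AbsIrr E 5 (Cyc K 5)

/-- the `p`-torsion subgroups are isomorphic Galois modules -/
def Cong (E E' : WeierstrassCurve K) (p : ℕ) : Prop :=
  ∃ f : Pt E → Pt E', Set.BijOn f {P | p • P = 0} {P | p • P = 0} ∧ ∀ P, p • P = 0 →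
    (∀ Q, p • Q = 0 → f (P + Q) = f P + f Q) ∧ ∀ s, f (act E s P) = act E' s (f P)

/-- for each finite set `S` of primes, `E` is congruent mod `p` to a curve with big image whose
`j`-invariant is congruent to that of `E` at the primes of `S` -/
def Link [NumberField K] (E : WeierstrassCurve K) [E.IsElliptic] (p : ℕ) : Prop :=
  ∀ S : Finset (HeightOneSpectrum (𝓞 K)), ∃ (E' : WeierstrassCurve K) (_ : E'.IsElliptic),
    Big E' ∧ Cong E E' p ∧ ∀ v ∈ S, v.valuation K (E'.j - E.j) < 1

end Vale.Agent.Q017A
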