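import Mathlib

/-!
# Integer polynomials without rational roots
-/

set_option linter.all false

namespace Vale.Agent.Q017A

variable {R : Type*} [CommRing R]

/-- evaluation of a coefficient list, constant term first -/
def ev : List ℤ → R → R
  | [], _ => 0
  | c :: l, x => c + x * ev l x

/-- the homogenised evaluation -/
def hom : List ℤ → R → R → R
  | [], _, _ => 0
  | c :: l, a, b => c * b ^ l.length + a * hom l a b

theorem hom_ev (l : List ℤ) (x d : R) : hom l (x * d) d * d = d ^ l.length * ev l x := by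
  induction l with
  | nil => simp [hom, ev]
  | cons c l ih =>
    simp only [hom, ev, List.length_cons]
    linear_combination x * d * ih

theorem hom_cast (l : List ℤ) (a b : ℤ) : ((hom l a b : ℤ) : R) = hom l (a : R) (b : R) := by
  induction l with
  | nil => simp [hom]
  | cons c l ih => simp [hom, ih]

/-- no projective root modulo `p`, hence no rational root -/
theorem no_rat (l : List ℤ) (p : ℕ) (hp : p ≠ 1)
    (h : ∀ a b : ZMod p, hom l a b = 0 → a = 0 ∧ b = 0) (x : ℚ) : ev l x ≠ 0 := by
  intro k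
  have d0 : (x.den : ℚ) ≠ 0 := by exact_mod_cast x.den_ne_zero
  have e := hom_ev l x x.den
  rw [k, mul_zero, Rat.mul_den_eq_num] at e
  have e1 : hom l x.num (x.den : ℤ) = 0 := by
    have := hom_cast (R := ℚ) l x.num x.den
    rw [Int.cast_natCast, (mul_eq_zero.1 e).resolve_right d0] at this
    exact_mod_cast this
  obtain ⟨k1, k2⟩ := h x.num (x.den : ℤ) (by rw [← hom_cast, e1]; simp)
  have := Nat.dvd_gcd (Int.natCast_dvd.1 ((ZMod.intCast_zmod_eq_zero_iff_dvd _ p).1 k1))
    (Int.natCast_dvd_natCast.1 ((ZMod.intCast_zmod_eq_zero_iff_dvd _ p).1 k2))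
  rw [x.reduced] at this
  exact hp (Nat.dvd_one.1 this)

example (x : ℚ) : 12 * x ^ 10 + 30 * x ^ 8 - 75 * x ^ 7 + 90 * x ^ 6 - 156 * x ^ 5 + 175 * x ^ 4
    - 70 * x ^ 3 - 10 * x + 7 ≠ 0 := fun h =>
  no_rat [7, -10, 0, -70, 175, -156, 90, -75, 30, 0, 12] 11 (by norm_num) (by decide +kernel) x
    (by simp only [ev]; push_cast; linear_combination h)

end Vale.Agent.Q017A
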