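import Vale.Agent.Q017B.Tools

/-!
# The isogeny relation on `j`-invariants generated by degrees `2, 3, 5`, and Euler's lemma
-/

set_option linter.all false

namespace Vale.Agent.Q017A

open Vale.Agent.Q017B

section rel
variable {K : Type*} [Field K]

/-- the `j`-map of `X₀(2)` -/
def R2 (V : K) : K := (V + 16) ^ 3 / V
/-- the `j`-map of `X₀(3)` -/
def R3 (T : K) : K := (T + 27) * (T + 3) ^ 3 / T
/-- the `j`-map of `X₀(5)` -/
def R5 (S : K) : K := (S ^ 2 + 10 * S + 5) ^ 3 / S

/-- chains of isogenies of degree `2`, `3`, `5` on `j`-invariants -/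
inductive Rel : K → K → Prop
  | refl (a : K) : Rel a a
  | s2 (V : K) (h : V ≠ 0) : Rel (R2 V) (R2 (4096 / V))
  | s3 (T : K) (h : T ≠ 0) : Rel (R3 T) (R3 (729 / T))
  | s5 (S : K) (h : S ≠ 0) : Rel (R5 S) (R5 (125 / S))
  | trans {a b c : K} (h : Rel a b) (k : Rel b c) : Rel a c

/-- `j` is related to all its conjugates -/
def QC (j : K) : Prop := ∀ t : K ≃+* K, Rel j (t j)

theorem Rel.of_eq {a b : K} (h : a = b) : Rel a b := h ▸ Rel.refl a

theorem map_R2 {L : Type*} [Field L] (t : K →+* L) (V : K) : t (R2 V) = R2 (t V) := by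
  simp [R2, map_ofNat]
theorem map_R3 {L : Type*} [Field L] (t : K →+* L) (V : K) : t (R3 V) = R3 (t V) := by
  simp [R3, map_ofNat]
theorem map_R5 {L : Type*} [Field L] (t : K →+* L) (V : K) : t (R5 V) = R5 (t V) := by
  simp [R5, map_ofNat]

theorem Rel.map {L : Type*} [Field L] (t : K →+* L) {a b : K} (h : Rel a b) : Rel (t a) (t b) := by
  induction h with
  | refl a => exact Rel.refl _
  | s2 V h =>
    have := Rel.s2 (t V) ((map_ne_zero t).2 h)
    simpa [map_R2, map_ofNat] using this
  | s3 V h =>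
    have := Rel.s3 (t V) ((map_ne_zero t).2 h)
    simpa [map_R3, map_ofNat] using this
  | s5 V h =>
    have := Rel.s5 (t V) ((map_ne_zero t).2 h)
    simpa [map_R5, map_ofNat] using this
  | trans _ _ h k => exact h.trans k

variable [CharZero K]

theorem Rel.symm {a b : K} (h : Rel a b) : Rel b a := by
  induction h with
  | refl a => exact Rel.refl _
  | s2 V h =>
    have := Rel.s2 (4096 / V) (div_ne_zero (by norm_num) h)
    rwa [show (4096 : K) / (4096 / V) = V by field_simp] at this
  | s3 V h =>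
    have := Rel.s3 (729 / V) (div_ne_zero (by norm_num) h)
    rwa [show (729 : K) / (729 / V) = V by field_simp] at this
  | s5 V h =>
    have := Rel.s5 (125 / V) (div_ne_zero (by norm_num) h)
    rwa [show (125 : K) / (125 / V) = V by field_simp] at this
  | trans _ _ h k => exact k.trans h

theorem QC.of_rel {a b : K} (h : Rel a b) (k : QC a) : QC b := fun t =>
  h.symm.trans ((k t).trans (h.map (t : K →+* K)))

theorem QC.rat (q : ℚ) : QC (q : K) := fun t => Rel.of_eq (by simp)

theorem QC.of_rat {a : K} {q : ℚ} (h : a = q) : QC a := h ▸ QC.rat q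

/-- an automorphism permutes the roots of a rational quadratic -/
theorem conj_root (t : K ≃+* K) {x : K} {T N : ℚ} (h : x ^ 2 - T * x + N = 0) :
    t x = x ∨ t x = T - x := by
  have k := congrArg t h
  simp only [map_add, map_sub, map_mul, map_pow, map_ratCast, map_zero] at k
  have : (t x - x) * (t x - (T - x)) = 0 := by linear_combination k - h
  rcases mul_eq_zero.1 this with j | j
  · left; linear_combination j
  · right; linear_combination j

/-- `x + c / x` rational: the conjugate is `x` or `c / x` -/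
theorem conj_inv (t : K ≃+* K) {x : K} (hx : x ≠ 0) {q c : ℚ} (h : x + c / x = q) :
    t x = x ∨ t x = c / x := by
  rcases conj_root t (x := x) (T := q) (N := c) (by field_simp at h; linear_combination h) with k | k
  · exact Or.inl k
  · right; rw [k, ← h]; ring

end rel

section euler
variable {K : Type*} [Field K] [NumberField K] [Algebra.IsQuadraticExtension ℚ K]
  [NumberField.IsTotallyComplex K]

/-- trace and norm -/
theorem trnm {x : K} (hx : ¬ ∃ q : ℚ, x = q) : ∃ T N : ℚ, x ^ 2 - T * x + N = 0 ∧ T ^ 2 < 4 * N := by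
  obtain ⟨T, N, h⟩ := line hx (x ^ 2)
  refine ⟨T, -N, by push_cast; linear_combination h, not_le.1 fun k => hx ?_⟩
  exact quad_rat (A := 1) (B := -T) (C := -N) one_ne_zero (by linarith)
    (by push_cast; linear_combination h)

/-- **Euler's lemma**: a quadratic point on `y² = f(x)` gives a rational point of the Jacobian -/
theorem euler {x y : K} (hx : ¬ ∃ q : ℚ, x = q) {a b c d e : ℚ}
    (h : y ^ 2 = a * x ^ 4 + b * x ^ 3 + c * x ^ 2 + d * x + e) :
    ∃ T N l m th eta : ℚ, x ^ 2 - T * x + N = 0 ∧ T ^ 2 < 4 * N ∧ y = l * x + m ∧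
      eta ^ 2 = th ^ 3 + c * th ^ 2 + (b * d - 4 * a * e) * th +
        (a * d ^ 2 + b ^ 2 * e - 4 * a * c * e) ∧
      l ^ 2 = c + th + b * T + a * T ^ 2 ∧ m ^ 2 = e + th * N + a * N ^ 2 ∧
      2 * l * m = d - th * T - 2 * a * N * T - b * N := by
  obtain ⟨T, N, hT, hD⟩ := trnm hx
  obtain ⟨l, m, rfl⟩ := line hx y
  obtain ⟨th, hth⟩ : ∃ th, th = l ^ 2 - c - b * T - a * T ^ 2 := ⟨_, rfl⟩
  have k := indep hx (a := d - th * T - 2 * a * N * T - b * N - 2 * l * m)
    (b := e + th * N + a * N ^ 2 - m ^ 2) (by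
      rw [hth]; push_cast
      linear_combination -h - ((a : K) * x ^ 2 + (b + a * T) * x +
        (c - l ^ 2 + (b + a * T) * T - a * N)) * hT)
  have h1 : l ^ 2 = c + th + b * T + a * T ^ 2 := by rw [hth]; ring
  have h2 : m ^ 2 = e + th * N + a * N ^ 2 := by linarith [k.2]
  have h3 : 2 * l * m = d - th * T - 2 * a * N * T - b * N := by linarith [k.1]
  have h4 : 4 * (c + th + b * T + a * T ^ 2) * (e + th * N + a * N ^ 2) =
      (d - th * T - 2 * a * N * T - b * N) ^ 2 := by rw [← h1, ← h2, ← h3]; ring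
  refine ⟨T, N, l, m, th, m * (2 * a * T + b) + l * (2 * a * N + th), hT, hD, rfl, ?_, h1, h2, h3⟩
  linear_combination (2 * a * T + b) ^ 2 * h2 + (2 * a * N + th) ^ 2 * h1 +
    (2 * a * T + b) * (2 * a * N + th) * h3 + a * h4

end euler

end Vale.Agent.Q017A
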