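import Vale.Agent.P017.H185.QFex
import Vale.Agent.P017.H185.Cl2
import Vale.Agent.P017.H185.Jac

/-!
# Primes of degree one with prescribed quadratic characters
-/

set_option linter.all false

namespace Vale.Agent.Q017A

open Vale.Agent.P017.H185 NumberField IsDedekindDomain jacobiSym

theorem gcd_big {m p : ℕ} (hm : m ≠ 0) (hp : m < p) (hpp : p.Prime) {c : ℤ} (hc : c.natAbs ∣ m) :
    c.gcd p = 1 := by
  rw [Int.gcd, Int.natAbs_natCast]
  refine ((Nat.Prime.coprime_iff_not_dvd hpp).2 fun h => ?_).symm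
  exact absurd (Nat.le_of_dvd (Nat.pos_of_ne_zero hm) (h.trans hc)) (by omega)

theorem prime_neg {a : ℤ} (ha : ¬ IsSquare a) (B : ℕ) :
    ∃ p > B, p.Prime ∧ Odd p ∧ jacobiSym a p = -1 := by
  have a0 : a.natAbs ≠ 0 := fun h => ha (by rw [Int.natAbs_eq_zero.1 h]; exact ⟨0, rfl⟩)
  obtain ⟨s, k, e, hs⟩ := Nat.sq_mul_squarefree a.natAbs
  obtain ⟨t, ht, et⟩ : ∃ t : ℤ, t.natAbs = s ∧ a = k ^ 2 * t := by
    have e' : (k : ℤ) ^ 2 * s = a.natAbs := by exact_mod_cast e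
    rcases Int.natAbs_eq a with h | h
    · exact ⟨s, by simp, by rw [e']; exact h⟩
    · exact ⟨-s, by simp, by rw [mul_neg, e']; exact h⟩
  obtain ⟨p, hp, pp, po, hj⟩ := exists_prime_neg (a := t) (Int.squarefree_natAbs.1 (ht ▸ hs))
    (fun h => ha ⟨k, by rw [et, h]; ring⟩) (max B a.natAbs)
  refine ⟨p, lt_of_le_of_lt (le_max_left _ _) hp, pp, po, ?_⟩
  rw [et, mul_left, hj, sq_one' (gcd_big a0 (lt_of_le_of_lt (le_max_right _ _) hp) pp
    ⟨k * s, by rw [← e]; simp; ring⟩)]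
  norm_num

/-- the product of two classes -/
theorem prime_mul {m p r : ℕ} (hm : m ≠ 0) (hp : m < p) (pp : p.Prime) (po : Odd p) (hr : m < r)
    (rp : r.Prime) (ro : Odd r) (B : ℕ) : ∃ l > B, l.Prime ∧ Odd l ∧
      ∀ a : ℤ, a.natAbs ∣ m → jacobiSym a l = jacobiSym a p * jacobiSym a r := by
  have c : ∀ p : ℕ, m < p → p.Prime → p.Coprime m := fun p hp pp =>
    (Nat.Prime.coprime_iff_not_dvd pp).2 fun h =>
      absurd (Nat.le_of_dvd (Nat.pos_of_ne_zero hm) h) (by omega)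
  obtain ⟨l, hl, lp, lo, h⟩ := exists_prime_class hm (po.mul ro)
    (Nat.Coprime.mul_left (c p hp pp) (c r hr rp)) B
  have := NeZero.mk pp.ne_zero
  have := NeZero.mk rp.ne_zero
  exact ⟨l, hl, lp, lo, fun a ha => by rw [h a ha, mul_right]⟩

theorem prime_neg2 {a b : ℤ} (ha : ¬ IsSquare a) (hb : ¬ IsSquare b) (B : ℕ) :
    ∃ p > B, p.Prime ∧ Odd p ∧ jacobiSym a p = -1 ∧ jacobiSym b p = -1 := by
  have a0 : a ≠ 0 := fun h => ha ⟨0, by rw [h]; rfl⟩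
  have b0 : b ≠ 0 := fun h => hb ⟨0, by rw [h]; rfl⟩
  obtain ⟨m, hm⟩ : ∃ m, m = a.natAbs * b.natAbs := ⟨_, rfl⟩
  have m0 : m ≠ 0 := by rw [hm]; positivity
  have am : a.natAbs ∣ m := ⟨_, hm⟩
  have bm : b.natAbs ∣ m := ⟨_, hm.trans (mul_comm _ _)⟩
  obtain ⟨p, hp, pp, po, pj⟩ := prime_neg ha (max B m)
  obtain ⟨r, hr, rp, ro, rj⟩ := prime_neg hb (max B m)
  rw [gt_iff_lt, max_lt_iff] at hp hr
  rcases eq_one_or_neg_one (gcd_big m0 hp.2 pp bm) with h1 | h1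
  · rcases eq_one_or_neg_one (gcd_big m0 hr.2 rp am) with h2 | h2
    · obtain ⟨l, hl, lp, lo, h⟩ := prime_mul m0 hp.2 pp po hr.2 rp ro B
      exact ⟨l, hl, lp, lo, by rw [h a am, pj, h2]; norm_num, by rw [h b bm, h1, rj]; norm_num⟩
    · exact ⟨r, hr.1, rp, ro, h2, rj⟩
  · exact ⟨p, hp.1, pp, po, pj, h1⟩

theorem prime_three {a b c : ℤ} (hb : ¬ IsSquare b) (hc : ¬ IsSquare c) (hab : ¬ IsSquare (a * b))
    (hac : ¬ IsSquare (a * c)) (B : ℕ) : ∃ p > B, p.Prime ∧ Odd p ∧ jacobiSym a p = 1 ∧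
      jacobiSym b p = -1 ∧ jacobiSym c p = -1 := by
  have a0 : a ≠ 0 := fun h => hab ⟨0, by rw [h]; ring⟩
  have b0 : b ≠ 0 := fun h => hb ⟨0, by rw [h]; rfl⟩
  have c0 : c ≠ 0 := fun h => hc ⟨0, by rw [h]; rfl⟩
  obtain ⟨m, hm⟩ : ∃ m, m = a.natAbs * b.natAbs * c.natAbs := ⟨_, rfl⟩
  have m0 : m ≠ 0 := by rw [hm]; positivity
  have am : a.natAbs ∣ m := ⟨b.natAbs * c.natAbs, by rw [hm]; ring⟩
  have bm : b.natAbs ∣ m := ⟨a.natAbs * c.natAbs, by rw [hm]; ring⟩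
  have cm : c.natAbs ∣ m := ⟨a.natAbs * b.natAbs, by rw [hm]; ring⟩
  obtain ⟨p, hp, pp, po, pb, pc⟩ := prime_neg2 hb hc (max B m)
  obtain ⟨r, hr, rp, ro, rb, rc⟩ := prime_neg2 hab hac (max B m)
  rw [gt_iff_lt, max_lt_iff] at hp hr
  rw [mul_left] at rb rc
  rcases eq_one_or_neg_one (gcd_big m0 hp.2 pp am) with h1 | h1
  · exact ⟨p, hp.1, pp, po, h1, pb, pc⟩
  · rcases eq_one_or_neg_one (gcd_big m0 hr.2 rp am) with h2 | h2
    · rw [h2, one_mul] at rb rc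
      exact ⟨r, hr.1, rp, ro, h2, rb, rc⟩
    · obtain ⟨l, hl, lp, lo, h⟩ := prime_mul m0 hp.2 pp po hr.2 rp ro B
      rw [h2] at rb rc
      exact ⟨l, hl, lp, lo, by rw [h a am, h1, h2]; norm_num,
        by rw [h b bm, pb]; linear_combination rb, by rw [h c cm, pc]; linear_combination rc⟩

variable {K : Type*} [Field K] [NumberField K] [Algebra.IsQuadraticExtension ℚ K]
  [IsTotallyComplex K]

theorem split_prime {d : ℕ} (q : QF K d) {l : ℕ} (lp : l.Prime) (lo : Odd l)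
    (h : jacobiSym (-(d : ℤ)) l = 1) :
    ∃ v : HeightOneSpectrum (𝓞 K), Ideal.absNorm v.asIdeal = l := by
  have := Fact.mk lp
  have ld : ¬ (l : ℤ) ∣ d := fun k => by
    have := NeZero.mk lp.ne_zero
    rw [mod_left, Int.emod_eq_zero_of_dvd (Int.dvd_neg.2 k), zero_left lp.one_lt] at h
    exact zero_ne_one h
  obtain ⟨r, hr⟩ := ZMod.isSquare_of_jacobiSym_eq_one h
  obtain ⟨c, hc⟩ : ∃ c : ℤ, (c : ZMod l) = r := ⟨r.val, by simp⟩
  have lc : (l : ℤ) ∣ c ^ 2 + d := by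
    rw [← ZMod.intCast_zmod_eq_zero_iff_dvd]
    push_cast at hr ⊢
    rw [hc]
    linear_combination -hr
  have l2 : ¬ (l : ℤ) ∣ 2 * c := fun k => by
    rcases (Nat.prime_iff_prime_int.mp lp).dvd_or_dvd k with k | k
    · have h2 : l ∣ 2 := by exact_mod_cast k
      rw [(Nat.prime_dvd_prime_iff_eq lp Nat.prime_two).mp h2] at lo
      exact absurd lo (by decide)
    · exact ld ((dvd_add_right (Dvd.dvd.pow k two_ne_zero)).mp lc)
  have hL := q.hasN_split lc (isCoprime_comm.1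
    ((Irreducible.coprime_iff_not_dvd (Nat.prime_iff_prime_int.mp lp).irreducible).mpr l2))
  generalize Ideal.span {(l : 𝓞 K), q.t - c} = I at hL
  have e : Ideal.absNorm I * Ideal.absNorm (I.map q.s) = l ^ 2 := by
    rw [← map_mul, hL, Ideal.absNorm_span_natCast, RingOfIntegers.rank,
      Algebra.IsQuadraticExtension.finrank_eq_two]
  have l1 : l ^ 2 ≠ 1 := (Nat.one_lt_pow two_ne_zero lp.one_lt).ne'
  have n1 : I ≠ ⊤ := fun k => l1 (by rw [← e, k, Ideal.map_top]; simp)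
  have n2 : I.map q.s ≠ ⊤ := fun k => n1 (by
    rw [← Ideal.comap_map_of_bijective q.s q.s.bijective (I := I), k, Ideal.comap_top])
  rw [Ne, ← Ideal.absNorm_eq_one_iff] at n1 n2
  have eI : Ideal.absNorm I = l := by
    obtain ⟨k, hk, ek⟩ := (Nat.dvd_prime_pow lp).1 ⟨_, e.symm⟩
    interval_cases k
    · exact absurd ek n1
    · simpa using ek
    · rw [ek] at e
      exact absurd (mul_left_cancel₀ (pow_ne_zero 2 lp.ne_zero) (e.trans (mul_one _).symm)) n2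
  exact ⟨⟨I, Ideal.isPrime_of_irreducible_absNorm (eI ▸ lp), fun k => lp.ne_zero
    (by rw [← eI, k]; simp)⟩, eI⟩

theorem deg_one {b c : ℤ} (hb : ¬ IsSquare b) (hc : ¬ IsSquare c) (kb : ¬ IsSquare (b : K))
    (kc : ¬ IsSquare (c : K)) (S : Finset (HeightOneSpectrum (𝓞 K))) (B : ℕ) :
    ∃ v ∉ S, ∃ l > B, l.Prime ∧ Odd l ∧ Ideal.absNorm v.asIdeal = l ∧ jacobiSym b l = -1 ∧
      jacobiSym c l = -1 := by
  obtain ⟨d, ⟨q⟩⟩ := exists_QF K
  have d0 : (d : K) ≠ 0 := by exact_mod_cast q.d_pos.ne'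
  have key : ∀ b : ℤ, ¬ IsSquare (b : K) → ¬ IsSquare (-(d : ℤ) * b) := fun b k ⟨s, e⟩ => k (by
    have e' : -(d : K) * b = s * s := by exact_mod_cast congrArg (Int.cast : ℤ → K) e
    exact ⟨s * q.θ / d, by field_simp; rw [q.hθ]; linear_combination -(d : K) * e'⟩)
  obtain ⟨l, hl, lp, lo, h1, h2, h3⟩ := prime_three hb hc (key b kb) (key c kc)
    (max B (S.sup fun v => Ideal.absNorm v.asIdeal))
  obtain ⟨v, hv⟩ := split_prime q lp lo h1
  rw [gt_iff_lt, max_lt_iff] at hl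
  exact ⟨v, fun k => absurd (Finset.le_sup (f := fun v => Ideal.absNorm v.asIdeal) k)
    (by simp only [hv]; omega), l, hl.1, lp, lo, hv, h2, h3⟩

theorem nsq_pos {n : ℕ} (hn : ¬ IsSquare n) : ¬ IsSquare (n : K) := fun ⟨s, e⟩ => by
  obtain ⟨d, ⟨q⟩⟩ := exists_QF K
  have e1 := q.eq_re_im s
  have e2 := q.re_im_unique (z := (n : K)) (u := q.re s ^ 2 - d * q.im s ^ 2)
    (v := 2 * q.re s * q.im s) (by
      push_cast
      linear_combination e + (s + q.re s + q.im s * q.θ) * e1 + (q.im s : K) ^ 2 * q.hθ)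
  have e3 := q.re_im_unique (z := (n : K)) (u := n) (v := 0) (by simp)
  have e4 : (n : ℚ) = q.re s ^ 2 - d * q.im s ^ 2 := e3.1.symm.trans e2.1
  have e5 : 2 * q.re s * q.im s = 0 := e2.2.symm.trans e3.2
  have d0 : (0 : ℚ) < d := by exact_mod_cast q.d_pos
  have n0 : (0 : ℚ) < n := by
    exact_mod_cast Nat.pos_of_ne_zero fun k => hn ⟨0, by rw [k]⟩
  rcases mul_eq_zero.1 e5 with k | k
  · have : q.re s = 0 := by linarith
    rw [this] at e4
    nlinarith [sq_nonneg (q.im s)]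
  · exact hn (Rat.isSquare_natCast_iff.1 ⟨q.re s, by rw [e4, k]; ring⟩)

theorem P1 (S : Finset (HeightOneSpectrum (𝓞 K))) (B : ℕ) : ∃ v ∉ S, ∃ l > B, l.Prime ∧
    Ideal.absNorm v.asIdeal = l ∧ (l % 12 = 5 ∨ l % 12 = 7) := by
  have k : ¬ IsSquare ((3 : ℤ) : K) := by exact_mod_cast nsq_pos (K := K) (n := 3) (by decide +kernel)
  have k' : ¬ IsSquare (3 : ℤ) := by decide +kernel
  obtain ⟨v, hv, l, hl, lp, lo, e, h, -⟩ := deg_one k' k' k k S B
  refine ⟨v, hv, l, hl, lp, e, ?_⟩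
  rw [mod_right 3 lo] at h
  have : l % 2 = 1 := Nat.odd_iff.1 lo
  have : l % 12 < 12 := Nat.mod_lt _ (by norm_num)
  change jacobiSym 3 (l % 12) = -1 at h
  interval_cases i : l % 12 <;> first | omega | norm_num at h

theorem P2 (h3 : ¬ IsSquare (-3 : K)) (S : Finset (HeightOneSpectrum (𝓞 K))) (B : ℕ) :
    ∃ v ∉ S, ∃ l > B, l.Prime ∧ Ideal.absNorm v.asIdeal = l ∧ l % 2 = 1 ∧ l % 3 = 2 ∧
      (l % 5 = 2 ∨ l % 5 = 3) := by
  have k : ¬ IsSquare ((5 : ℤ) : K) := by exact_mod_cast nsq_pos (K := K) (n := 5) (by decide +kernel)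
  obtain ⟨v, hv, l, hl, lp, lo, e, h, h'⟩ := deg_one (b := -3) (c := 5) (by decide +kernel)
    (by decide +kernel) (by exact_mod_cast h3) k S B
  have l2 : l % 2 = 1 := Nat.odd_iff.1 lo
  refine ⟨v, hv, l, hl, lp, e, l2, ?_, ?_⟩
  · rw [mod_right (-3) lo] at h
    have : l % 12 < 12 := Nat.mod_lt _ (by norm_num)
    change jacobiSym (-3) (l % 12) = -1 at h
    interval_cases i : l % 12 <;> first | omega | norm_num at h
  · rw [mod_right 5 lo] at h'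
    have : l % 20 < 20 := Nat.mod_lt _ (by norm_num)
    change jacobiSym 5 (l % 20) = -1 at h'
    interval_cases i : l % 20 <;> first | omega | norm_num at h'

end Vale.Agent.Q017A
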