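import Mathlib

/-!
# Sixteen pairs of conjugate imaginary quadratic numbers
-/

namespace Vale.Agent.Q017A

/-- the triples `(d, r, s)` describing the numbers `r ± s √-d` -/
def excList : List (ℚ × ℚ × ℚ) :=
  [(1, -62613 / 2, 198261 / 2),
   (1, -47709 / 256, 15363 / 256),
   (1, 19928133 / 8, 13670181 / 8),
   (1, -1971 / 4, 86643 / 4),
   (6, 5676659066209361 / 9495123019886, 2774543142148093 / 9495123019886),
   (6, -592979209 / 229376, 762492693 / 229376),
   (6, 6884125219660841 / 10976, 1227486390258007 / 10976),
   (6, -3560041489 / 134456, 8114987913 / 134456),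
   (7, -10595863073 / 65536, 3298097475 / 65536),
   (7, -21186375087606758237 / 70368744177664, 62308679747468984055 / 70368744177664),
   (11, 127171 / 6, 77363 / 6),
   (11, 20629720639 / 28697814, 507968593 / 28697814),
   (11, -11634636299 / 486, 10449954757 / 486),
   (11, 81289 / 54, 24167 / 54),
   (11, -7030747246639936 / 1793613375, 2602914044974208 / 1793613375),
   (11, 8328158739333824 / 823974609375, 3433685291404928 / 823974609375)]

/-- `j = r ± s √-d` for a triple `(d, r, s)` of the list -/
def Exc {K : Type*} [Field K] (j : K) : Prop :=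
  ∃ p ∈ excList, (j - (p.2.1 : K)) ^ 2 = -(p.1 : K) * (p.2.2 : K) ^ 2

end Vale.Agent.Q017A
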