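import Vale.Agent.Q017A.Runge
import Vale.Agent.Q017A.ExcDef
import Vale.Agent.Q017B.F

/-!
# The exceptional points
-/

set_option linter.all false

namespace Vale.Agent.Q017A

open Vale.Agent.Q017B

variable {K : Type*} [Field K] [CharZero K]

theorem jA_eq {n z t j : K} (hn : n ≠ 0) (hz : z ≠ 0) (ht : z ^ 2 * n ^ 3 = t)
    (h : (t + 27) * (t + 243) ^ 3 = j * t ^ 3) : jA n z = j := by
  have t0 : t ≠ 0 := by rw [← ht]; positivity
  unfold jA R3; rw [ht]; field_simp; linear_combination 729 * h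

theorem ex_R2 {V j : K} (h : (V + 16) ^ 3 = j * V) : ∃ V : K, V ≠ 0 ∧ j = R2 V := by
  have V0 : V ≠ 0 := by rintro rfl; norm_num at h
  exact ⟨V, V0, by rw [R2, eq_div_iff V0, h]⟩

theorem br39a {n z : K} (hn : n ≠ 0) (hz : z ≠ 0) (h : n + 5 + 9 / n = 1 / z - z)
    (q : 2 * z ^ 2 + 5 * z + 8 = 0) :
    n = 1 * z ∨ n = (-45 / 8) + (-9 / 4) * z := by
  have k : z * ((n - (1 * z)) * (n - ((-45 / 8) + (-9 / 4) * z))) = 0 := by
    linear_combination cubic hn hz h + (((1 / 8)) * n + ((-9 / 8) * z)) * q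
  exact (mul_eq_zero.1 ((mul_eq_zero.1 k).resolve_left hz)).imp sub_eq_zero.1 sub_eq_zero.1

theorem j39a0 {n z : K} (hn : n ≠ 0) (hz : z ≠ 0) (q : 2 * z ^ 2 + 5 * z + 8 = 0)
    (e : n = 1 * z) :
    jA n z = (-627385652613836501 / 35184372088832) + (60355066783497695 / 17592186044416) * z :=
  jA_eq hn hz (t := (-35 / 2) + (-319 / 16) * z)
    (by rw [e]; linear_combination ((35 / 16) + (9 / 8) * z + (-5 / 4) * z ^ 2 + (1 / 2) * z ^ 3) * q)
    (by linear_combination ((3763020638073757813929 / 2251799813685248) + (-646388468186017713992451 / 9007199254740992) * z + (1970617406346468699682401 / 144115188075855872) * z ^ 2) * q)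

theorem j39a1 {n z : K} (hn : n ≠ 0) (hz : z ≠ 0) (q : 2 * z ^ 2 + 5 * z + 8 = 0)
    (e : n = (-45 / 8) + (-9 / 4) * z) :
    jA n z = (1331 / 8) :=
  jA_eq hn hz (t := (-3645 / 8) + (-729 / 4) * z)
    (by rw [e]; linear_combination ((3645 / 64) + (-6561 / 512) * z + (-3645 / 128) * z ^ 2 + (-729 / 128) * z ^ 3) * q)
    (by linear_combination ((5083344236169 / 2048) + (1204490300301 / 512) * z + (282429536481 / 512) * z ^ 2) * q)

theorem br39b {n z : K} (hn : n ≠ 0) (hz : z ≠ 0) (h : n + 5 + 9 / n = 1 / z - z)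
    (q : 8 * z ^ 2 - 5 * z + 2 = 0) :
    n = (-5 / 2) + 4 * z ∨ n = (-9) * z := by
  have k : z * ((n - ((-5 / 2) + 4 * z)) * (n - ((-9) * z))) = 0 := by
    linear_combination cubic hn hz h + (((1 / 2)) * n + ((-9 / 2) * z)) * q
  exact (mul_eq_zero.1 ((mul_eq_zero.1 k).resolve_left hz)).imp sub_eq_zero.1 sub_eq_zero.1

theorem j39b0 {n z : K} (hn : n ≠ 0) (hz : z ≠ 0) (q : 8 * z ^ 2 - 5 * z + 2 = 0)
    (e : n = (-5 / 2) + 4 * z) :
    jA n z = (1784071549 / 32) + (-2734106225 / 64) * z :=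
  jA_eq hn hz (t := (-5 / 2) + 4 * z)
    (by rw [e]; linear_combination ((5 / 4) + (9 / 8) * z + (-10) * z ^ 2 + 8 * z ^ 3) * q)
    (by linear_combination ((310256102169 / 512) + (-27942911901 / 32) * z + (2734106481 / 8) * z ^ 2) * q)

theorem j39b1 {n z : K} (hn : n ≠ 0) (hz : z ≠ 0) (q : 8 * z ^ 2 - 5 * z + 2 = 0)
    (e : n = (-9) * z) :
    jA n z = (-1680914269 / 32768) :=
  jA_eq hn hz (t := (-25515 / 2048) + (232551 / 4096) * z)
    (by rw [e]; linear_combination ((25515 / 4096) + (-6561 / 512) * z + (-3645 / 64) * z ^ 2 + (-729 / 8) * z ^ 3) * q)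
    (by linear_combination ((22231865399736617932329 / 562949953421312) + (670168831976236543671171 / 562949953421312) * z + (2924642895725209695201 / 2251799813685248) * z ^ 2) * q)

theorem br7a {n z : K} (hn : n ≠ 0) (hz : z ≠ 0) (h : n + 5 + 9 / n = 1 / z - z)
    (q : 2 * z ^ 2 - 5 * z + 4 = 0) :
    n = (-15 / 4) + (3 / 2) * z ∨ n = (-3) * z := by
  have k : z * ((n - ((-15 / 4) + (3 / 2) * z)) * (n - ((-3) * z))) = 0 := by
    linear_combination cubic hn hz h + (((1 / 4)) * n + ((-9 / 4) * z)) * q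
  exact (mul_eq_zero.1 ((mul_eq_zero.1 k).resolve_left hz)).imp sub_eq_zero.1 sub_eq_zero.1

theorem j7a0 {n z : K} (hn : n ≠ 0) (hz : z ≠ 0) (q : 2 * z ^ 2 - 5 * z + 4 = 0)
    (e : n = (-15 / 4) + (3 / 2) * z) :
    jA n z = (186597 / 4) + (-101277 / 4) * z :=
  jA_eq hn hz (t := (-135 / 4) + (27 / 2) * z)
    (by rw [e]; linear_combination ((135 / 16) + (459 / 64) * z + (-135 / 16) * z ^ 2 + (27 / 16) * z ^ 3) * q)
    (by linear_combination ((110816608761 / 256) + (-13588414929 / 64) * z + (1994498073 / 64) * z ^ 2) * q)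

theorem j7a1 {n z : K} (hn : n ≠ 0) (hz : z ≠ 0) (q : 2 * z ^ 2 - 5 * z + 4 = 0)
    (e : n = (-3) * z) :
    jA n z = (-1269700685559 / 1073741824) + (1332509255523 / 536870912) * z :=
  jA_eq hn hz (t := (1215 / 4) + (-2403 / 16) * z)
    (by rw [e]; linear_combination ((-1215 / 16) + (-459 / 8) * z + (-135 / 4) * z ^ 2 + (-27 / 2) * z ^ 3) * q)
    (by linear_combination ((5992243101109439398089 / 274877906944) + (-10831980781579827732741 / 549755813888) * z + (19608603856943144072913 / 4398046511104) * z ^ 2) * q)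

theorem br7b {n z : K} (hn : n ≠ 0) (hz : z ≠ 0) (h : n + 5 + 9 / n = 1 / z - z)
    (q : 4 * z ^ 2 + 5 * z + 2 = 0) :
    n = 3 * z ∨ n = (-15 / 2) + (-6) * z := by
  have k : z * ((n - (3 * z)) * (n - ((-15 / 2) + (-6) * z))) = 0 := by
    linear_combination cubic hn hz h + (((1 / 2)) * n + ((-9 / 2) * z)) * q
  exact (mul_eq_zero.1 ((mul_eq_zero.1 k).resolve_left hz)).imp sub_eq_zero.1 sub_eq_zero.1

theorem j7b0 {n z : K} (hn : n ≠ 0) (hz : z ≠ 0) (q : 4 * z ^ 2 + 5 * z + 2 = 0)
    (e : n = 3 * z) :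
    jA n z = (-296828346231 / 32768) + (-96294940803 / 8192) * z :=
  jA_eq hn hz (t := (1215 / 128) + (2403 / 256) * z)
    (by rw [e]; linear_combination ((-1215 / 256) + (459 / 64) * z + (-135 / 16) * z ^ 2 + (27 / 4) * z ^ 3) * q)
    (by linear_combination ((572762022481920225609 / 137438953472) + (853283288473136480133 / 137438953472) * z + (1336180500905604533073 / 549755813888) * z ^ 2) * q)

theorem j7b1 {n z : K} (hn : n ≠ 0) (hz : z ≠ 0) (q : 4 * z ^ 2 + 5 * z + 2 = 0)
    (e : n = (-15 / 2) + (-6) * z) :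
    jA n z = (-1053 / 8) + (-74493 / 16) * z :=
  jA_eq hn hz (t := (-135 / 2) + (-54) * z)
    (by rw [e]; linear_combination ((135 / 4) + (-459 / 8) * z + (-135) * z ^ 2 + (-54) * z ^ 3) * q)
    (by linear_combination ((-16601685399 / 128) + (-7762758687 / 16) * z + (-1449239607 / 8) * z ^ 2) * q)

theorem br11a {n z : K} (hn : n ≠ 0) (hz : z ≠ 0) (h : n + 5 + 9 / n = 1 / z - z)
    (q : z ^ 2 - z + 3 = 0) :
    n = (-5 / 3) + (2 / 3) * z ∨ n = (-3) + (-2) * z := by
  have k : z * ((n - ((-5 / 3) + (2 / 3) * z)) * (n - ((-3) + (-2) * z))) = 0 := by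
    linear_combination cubic hn hz h + (((1 / 3)) * n + ((-4 / 3) * z)) * q
  exact (mul_eq_zero.1 ((mul_eq_zero.1 k).resolve_left hz)).imp sub_eq_zero.1 sub_eq_zero.1

theorem j11a0 {n z : K} (hn : n ≠ 0) (hz : z ≠ 0) (q : z ^ 2 - z + 3 = 0)
    (e : n = (-5 / 3) + (2 / 3) * z) :
    jA n z = (24904 / 3) + (77363 / 3) * z :=
  jA_eq hn hz (t := (-35 / 3) + (-13 / 3) * z)
    (by rw [e]; linear_combination ((35 / 9) + (74 / 27) * z + (-52 / 27) * z ^ 2 + (8 / 27) * z ^ 3) * q)
    (by linear_combination ((1827056296 / 27) + (530946793 / 27) * z + (56665024 / 27) * z ^ 2) * q)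

theorem j11a1 {n z : K} (hn : n ≠ 0) (hz : z ≠ 0) (q : z ^ 2 - z + 3 = 0)
    (e : n = (-3) + (-2) * z) :
    jA n z = (10568844616 / 14348907) + (-507968593 / 14348907) * z :=
  jA_eq hn hz (t := (-93) + 253 * z)
    (by rw [e]; linear_combination (31 + (-74) * z + (-44) * z ^ 2 + (-8) * z ^ 3) * q)
    (by linear_combination ((196477967205256 / 1594323) + (-7993458220442717 / 4782969) * z + (67015838277467728 / 14348907) * z ^ 2) * q)

theorem br11b {n z : K} (hn : n ≠ 0) (hz : z ≠ 0) (h : n + 5 + 9 / n = 1 / z - z)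
    (q : 3 * z ^ 2 + z + 1 = 0) :
    n = (-1) + 2 * z ∨ n = (-5) + (-6) * z := by
  have k : z * ((n - ((-1) + 2 * z)) * (n - ((-5) + (-6) * z))) = 0 := by
    linear_combination cubic hn hz h + ((1) * n + ((-4) * z)) * q
  exact (mul_eq_zero.1 ((mul_eq_zero.1 k).resolve_left hz)).imp sub_eq_zero.1 sub_eq_zero.1

theorem j11b0 {n z : K} (hn : n ≠ 0) (hz : z ≠ 0) (q : 3 * z ^ 2 + z + 1 = 0)
    (e : n = (-1) + 2 * z) :
    jA n z = (-3680765176 / 81) + (-10449954757 / 81) * z :=
  jA_eq hn hz (t := (-31 / 81) + (-253 / 81) * z)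
    (by rw [e]; linear_combination ((31 / 81) + (74 / 27) * z + (-44 / 9) * z ^ 2 + (8 / 3) * z ^ 3) * q)
    (by linear_combination ((200661430558072 / 531441) + (-269157936340843 / 531441) * z + (-696417522120056 / 531441) * z ^ 2) * q)

theorem j11b1 {n z : K} (hn : n ≠ 0) (hz : z ≠ 0) (q : 3 * z ^ 2 + z + 1 = 0)
    (e : n = (-5) + (-6) * z) :
    jA n z = (17576 / 9) + (24167 / 9) * z :=
  jA_eq hn hz (t := (-35) + 39 * z)
    (by rw [e]; linear_combination (35 + (-74) * z + (-156) * z ^ 2 + (-72) * z ^ 3) * q)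
    (by linear_combination ((105649336 / 9) + (401864255 / 3) * z + (-52323752) * z ^ 2) * q)

theorem br6a {n z : K} (hn : n ≠ 0) (hz : z ≠ 0) (h : n + 5 + 9 / n = 1 / z - z)
    (q : z ^ 2 + 4 * z + 28 = 0) :
    n = (1 / 4) * z ∨ n = (-36 / 7) + (-9 / 7) * z := by
  have k : z * ((n - ((1 / 4) * z)) * (n - ((-36 / 7) + (-9 / 7) * z))) = 0 := by
    linear_combination cubic hn hz h + (((1 / 28)) * n + ((-9 / 28) * z)) * q
  exact (mul_eq_zero.1 ((mul_eq_zero.1 k).resolve_left hz)).imp sub_eq_zero.1 sub_eq_zero.1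

theorem j6a0 {n z : K} (hn : n ≠ 0) (hz : z ≠ 0) (q : z ^ 2 + 4 * z + 28 = 0)
    (e : n = (1 / 4) * z) :
    jA n z = (1451057962030634 / 4747561509943) + (-2774543142148093 / 18990246039772) * z :=
  jA_eq hn hz (t := (-70) + (-19 / 4) * z)
    (by rw [e]; linear_combination ((5 / 2) + (-3 / 16) * z + (-1 / 16) * z ^ 2 + (1 / 64) * z ^ 3) * q)
    (by linear_combination ((-1630591563796871031 / 387556041628) + (-440789424573774699 / 678223072849) * z + (-2301485556057061023 / 151921968318176) * z ^ 2) * q)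

theorem j6a1 {n z : K} (hn : n ≠ 0) (hz : z ≠ 0) (q : z ^ 2 + 4 * z + 28 = 0)
    (e : n = (-36 / 7) + (-9 / 7) * z) :
    jA n z = (-677735951 / 114688) + (-762492693 / 458752) * z :=
  jA_eq hn hz (t := (-46656 / 7) + (-11664 / 7) * z)
    (by rw [e]; linear_combination ((11664 / 49) + (8748 / 343) * z + (-5832 / 343) * z ^ 2 + (-729 / 343) * z ^ 3) * q)
    (by linear_combination ((418662464653449 / 1372) + (210881107992969 / 1372) * z + (106220237730597 / 5488) * z ^ 2) * q)

theorem br6b {n z : K} (hn : n ≠ 0) (hz : z ≠ 0) (h : n + 5 + 9 / n = 1 / z - z)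
    (q : 28 * z ^ 2 - 4 * z + 1 = 0) :
    n = (-1) + 7 * z ∨ n = (-36) * z := by
  have k : z * ((n - ((-1) + 7 * z)) * (n - ((-36) * z))) = 0 := by
    linear_combination cubic hn hz h + ((1) * n + ((-9) * z)) * q
  exact (mul_eq_zero.1 ((mul_eq_zero.1 k).resolve_left hz)).imp sub_eq_zero.1 sub_eq_zero.1

theorem j6b0 {n z : K} (hn : n ≠ 0) (hz : z ≠ 0) (q : 28 * z ^ 2 - 4 * z + 1 = 0)
    (e : n = (-1) + 7 * z) :
    jA n z = (404045630671631 / 784) + (1227486390258007 / 784) * z :=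
  jA_eq hn hz (t := (-1 / 16) + (7 / 16) * z)
    (by rw [e]; linear_combination ((1 / 16) + (-3 / 16) * z + (-7 / 2) * z ^ 2 + (49 / 4) * z ^ 3) * q)
    (by linear_combination ((3211558055199 / 6272) + (-91149079599 / 448) * z + (-599358588993 / 128) * z ^ 2) * q)

theorem j6b1 {n z : K} (hn : n ≠ 0) (hz : z ≠ 0) (q : 28 * z ^ 2 - 4 * z + 1 = 0)
    (e : n = (-36) * z) :
    jA n z = (81338329 / 2401) + (-8114987913 / 9604) * z :=
  jA_eq hn hz (t := (-29160 / 2401) + (55404 / 2401) * z)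
    (by rw [e]; linear_combination ((29160 / 2401) + (8748 / 343) * z + (-11664 / 49) * z ^ 2 + (-11664 / 7) * z ^ 3) * q)
    (by linear_combination ((3369674068150605129 / 13841287201) + (-7571706295422238380 / 13841287201) * z + (5132310424900492788 / 13841287201) * z ^ 2) * q)

theorem br1a {n z : K} (hn : n ≠ 0) (hz : z ≠ 0) (h : n + 5 + 9 / n = 1 / z - z)
    (q : z ^ 2 + 2 * z + 2 = 0) :
    n = (3 / 2) * z ∨ n = (-6) + (-3) * z := by
  have k : z * ((n - ((3 / 2) * z)) * (n - ((-6) + (-3) * z))) = 0 := by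
    linear_combination cubic hn hz h + (((1 / 2)) * n + ((-9 / 2) * z)) * q
  exact (mul_eq_zero.1 ((mul_eq_zero.1 k).resolve_left hz)).imp sub_eq_zero.1 sub_eq_zero.1

theorem j1a0 {n z : K} (hn : n ≠ 0) (hz : z ≠ 0) (q : z ^ 2 + 2 * z + 2 = 0)
    (e : n = (3 / 2) * z) :
    jA n z = 67824 + (198261 / 2) * z :=
  jA_eq hn hz (t := (-27 / 2) * z)
    (by rw [e]; linear_combination ((27 / 4) * z + (-27 / 4) * z ^ 2 + (27 / 8) * z ^ 3) * q)
    (by linear_combination ((387420489 / 2) + (-645700815 / 2) * z + 243931419 * z ^ 2) * q)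

theorem j1a1 {n z : K} (hn : n ≠ 0) (hz : z ≠ 0) (q : z ^ 2 + 2 * z + 2 = 0)
    (e : n = (-6) + (-3) * z) :
    jA n z = (-16173 / 128) + (15363 / 256) * z :=
  jA_eq hn hz (t := (-216) + (-108) * z)
    (by rw [e]; linear_combination (108 + (-54) * z + (-108) * z ^ 2 + (-27) * z ^ 3) * q)
    (by linear_combination ((-1277052723 / 2) + (14348907 / 2) * z + (846585513 / 4) * z ^ 2) * q)

theorem br1b {n z : K} (hn : n ≠ 0) (hz : z ≠ 0) (h : n + 5 + 9 / n = 1 / z - z)
    (q : 2 * z ^ 2 - 2 * z + 1 = 0) :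
    n = (-3) + 3 * z ∨ n = (-6) * z := by
  have k : z * ((n - ((-3) + 3 * z)) * (n - ((-6) * z))) = 0 := by
    linear_combination cubic hn hz h + ((1) * n + ((-9) * z)) * q
  exact (mul_eq_zero.1 ((mul_eq_zero.1 k).resolve_left hz)).imp sub_eq_zero.1 sub_eq_zero.1

theorem j1b0 {n z : K} (hn : n ≠ 0) (hz : z ≠ 0) (q : 2 * z ^ 2 - 2 * z + 1 = 0)
    (e : n = (-3) + 3 * z) :
    jA n z = (16799157 / 4) + (-13670181 / 4) * z :=
  jA_eq hn hz (t := (-27 / 4) + (27 / 4) * z)
    (by rw [e]; linear_combination ((27 / 4) + (27 / 4) * z + (-27) * z ^ 2 + (27 / 2) * z ^ 3) * q)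
    (by linear_combination ((12469200183 / 8) + (-6787033011 / 4) * z + (4204229751 / 8) * z ^ 2) * q)

theorem j1b1 {n z : K} (hn : n ≠ 0) (hz : z ≠ 0) (q : 2 * z ^ 2 - 2 * z + 1 = 0)
    (e : n = (-6) * z) :
    jA n z = 21168 + (-86643 / 2) * z :=
  jA_eq hn hz (t := 54 * z)
    (by rw [e]; linear_combination ((-54) * z + (-108) * z ^ 2 + (-108) * z ^ 3) * q)
    (by linear_combination (387420489 + 1807962282 * z + 3415039866 * z ^ 2) * q)

theorem excA {n z : K} (hn : n ≠ 0) (hz : z ≠ 0) (h : n + 5 + 9 / n = 1 / z - z)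
    (hE : ExZ z) : QC (jA n z) ∨ (∃ V : K, V ≠ 0 ∧ jA n z = R2 V) ∨ Exc (jA n z) := by
  rcases hE with (q | q) | (q | q) | (q | q) | (q | q) | (q | q)
  · rcases br39a hn hz h q with e | e
    · have e' : 9 / n = (-45 / 8) + (-9 / 4) * z := by
        rw [div_eq_iff hn, e]; linear_combination ((9 / 8)) * q
      exact Or.inl (QC.of_rel (rel15 hn hz h).symm (QC.of_rat (q := 1331 / 8)
        (by rw [j39a1 (w15 hn h).1 hz q e']; norm_num)))
    · exact Or.inl (QC.of_rat (q := 1331 / 8) (by rw [j39a1 hn hz q e]; norm_num))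
  · rcases br39b hn hz h q with e | e
    · have e' : 9 / n = (-9) * z := by
        rw [div_eq_iff hn, e]; linear_combination ((9 / 2)) * q
      exact Or.inl (QC.of_rel (rel15 hn hz h).symm (QC.of_rat (q := -1680914269 / 32768)
        (by rw [j39b1 (w15 hn h).1 hz q e']; norm_num)))
    · exact Or.inl (QC.of_rat (q := -1680914269 / 32768) (by rw [j39b1 hn hz q e]; norm_num))
  · rcases br7a hn hz h q with e | e
    · exact Or.inr (Or.inl (ex_R2 (V := (457 / 2) + (-93) * z) (by
        rw [j7a0 hn hz q e]; linear_combination ((7913835 / 8) + (-804357 / 2) * z) * q)))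
    · exact Or.inr (Or.inl (ex_R2 (V := (139657 / 32768) + (-41757 / 16384) * z) (by
        rw [j7a1 hn hz q e]; linear_combination ((58750598853593361 / 17592186044416) + (-72809469825093 / 8796093022208) * z) * q)))
  · rcases br7b hn hz h q with e | e
    · exact Or.inr (Or.inl (ex_R2 (V := (-8641 / 4) + (-41757 / 8) * z) (by
        rw [j7b0 hn hz q e]; linear_combination ((-3857112918857655 / 262144) + (-72809469825093 / 2048) * z) * q)))
    · exact Or.inr (Or.inl (ex_R2 (V := (-1) + (-93 / 2) * z) (by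
        rw [j7b1 hn hz q e]; linear_combination ((25947 / 16) + (-804357 / 32) * z) * q)))
  · rcases br11a hn hz h q with e | e
    · refine Or.inr (Or.inr ⟨(11, 127171 / 6, 77363 / 6), by simp [excList], ?_⟩)
      rw [j11a0 hn hz q e]; push_cast; linear_combination (5985033769 / 9) * q
    · refine Or.inr (Or.inr ⟨(11, 20629720639 / 28697814, 507968593 / 28697814), by simp [excList], ?_⟩)
      rw [j11a1 hn hz q e]; push_cast; linear_combination (258032091474399649 / 205891132094649) * q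
  · rcases br11b hn hz h q with e | e
    · refine Or.inr (Or.inr ⟨(11, -11634636299 / 486, 10449954757 / 486), by simp [excList], ?_⟩)
      rw [j11b0 hn hz q e]; push_cast; linear_combination (109201554423346929049 / 19683) * q
    · refine Or.inr (Or.inr ⟨(11, 81289 / 54, 24167 / 54), by simp [excList], ?_⟩)
      rw [j11b1 hn hz q e]; push_cast; linear_combination (584043889 / 243) * q
  · rcases br6a hn hz h q with e | e
    · refine Or.inr (Or.inr ⟨(6, 5676659066209361 / 9495123019886, 2774543142148093 / 9495123019886), by simp [excList], ?_⟩)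
      rw [j6a0 hn hz q e]; push_cast; linear_combination (7698089647641012999078343536649 / 360629444651076129405811984) * q
    · refine Or.inr (Or.inr ⟨(6, -592979209 / 229376, 762492693 / 229376), by simp [excList], ?_⟩)
      rw [j6a1 hn hz q e]; push_cast; linear_combination (581395106878392249 / 210453397504) * q
  · rcases br6b hn hz h q with e | e
    · refine Or.inr (Or.inr ⟨(6, 6884125219660841 / 10976, 1227486390258007 / 10976), by simp [excList], ?_⟩)
      rw [j6b0 hn hz q e]; push_cast; linear_combination (1506722838268632262116027612049 / 17210368) * q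
    · refine Or.inr (Or.inr ⟨(6, -3560041489 / 134456, 8114987913 / 134456), by simp [excList], ?_⟩)
      rw [j6b1 hn hz q e]; push_cast; linear_combination (65853028828136095569 / 2582630848) * q
  · rcases br1a hn hz h q with e | e
    · refine Or.inr (Or.inr ⟨(1, -62613 / 2, 198261 / 2), by simp [excList], ?_⟩)
      rw [j1a0 hn hz q e]; push_cast; linear_combination (39307424121 / 4) * q
    · refine Or.inr (Or.inr ⟨(1, -47709 / 256, 15363 / 256), by simp [excList], ?_⟩)
      rw [j1a1 hn hz q e]; push_cast; linear_combination (236021769 / 65536) * q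
  · rcases br1b hn hz h q with e | e
    · refine Or.inr (Or.inr ⟨(1, 19928133 / 8, 13670181 / 8), by simp [excList], ?_⟩)
      rw [j1b0 hn hz q e]; push_cast; linear_combination (186873848572761 / 32) * q
    · refine Or.inr (Or.inr ⟨(1, -1971 / 4, 86643 / 4), by simp [excList], ?_⟩)
      rw [j1b1 hn hz q e]; push_cast; linear_combination (7507009449 / 8) * q

theorem excB' {j : K} (h : ExcB j) : Exc j := by
  rcases h with h | h | h | h
  · refine ⟨(7, -10595863073 / 65536, 3298097475 / 65536), by simp [excList], ?_⟩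
    push_cast; linear_combination h
  · refine ⟨(7, -21186375087606758237 / 70368744177664, 62308679747468984055 / 70368744177664), by simp [excList], ?_⟩
    push_cast; linear_combination h
  · refine ⟨(11, -7030747246639936 / 1793613375, 2602914044974208 / 1793613375), by simp [excList], ?_⟩
    push_cast; linear_combination h
  · refine ⟨(11, 8328158739333824 / 823974609375, 3433685291404928 / 823974609375), by simp [excList], ?_⟩
    push_cast; linear_combination h

end Vale.Agent.Q017A
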