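import Vale.Agent.Q017A.Model

/-!
# Imaginary quadratic points of `X₀(15)`: families, poles, behaviour above `2`
-/

set_option linter.all false

namespace Vale.Agent.Q017A

open Vale.Agent.Q017B NumberField IsDedekindDomain

/-- the rational points of the cubic model -/
theorem ratA {n z : ℚ} (h : z * (n ^ 2 + 5 * n + 9) - n * (1 - z ^ 2) = 0) :
    (n = 0 ∧ z = 0) ∨ ((n = -2 ∨ n = -9 / 2) ∧ (z = 2 ∨ z = -1 / 2)) := by
  by_cases hn : n = 0
  · left; subst hn; exact ⟨rfl, by linarith⟩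
  right
  have hq : n ^ 2 * (n * z - 1) + 5 * (n * z) * n + n * z * (9 + n * z) = 0 := by
    linear_combination n * h
  have h1 := rat15 (x := -4 * (n * z) - 16) (y := 4 * (2 * n * (n * z - 1) + 5 * (n * z))) (by
    linear_combination 64 * (n * z - 1) * hq)
  have hn' : n = -2 ∨ n = -9 / 2 := by
    rcases h1 with k | k | k | k | k
    · have e : n * z = -4 := by linarith
      rw [e] at hq
      have : (n + 2) ^ 2 = 0 := by linarith
      left; have := pow_eq_zero_iff two_ne_zero |>.1 this; linarith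
    · have e : n * z = 0 := by linarith
      rw [e] at hq
      exact absurd (pow_eq_zero_iff two_ne_zero |>.1 (by linarith : n ^ 2 = 0)) hn
    · have e : n * z = 9 / 4 := by linarith
      rw [e] at hq
      have : (n + 9 / 2) ^ 2 = 0 := by linarith
      right; have := pow_eq_zero_iff two_ne_zero |>.1 this; linarith
    · have e : n * z = -9 := by linarith
      rw [e] at hq
      have : n * (2 * n + 9) = 0 := by linarith
      rcases mul_eq_zero.1 this with k | k
      · exact absurd k hn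
      · right; linarith
    · have e : n * z = 1 := by linarith
      rw [e] at hq
      left; linarith
  refine ⟨hn', ?_⟩
  have : (z - 2) * (2 * z + 1) = 0 := by
    rcases hn' with k | k <;> rw [k] at h <;> linarith
  rcases mul_eq_zero.1 this with k | k
  · left; linarith
  · right; linarith

section val
variable {K : Type*} [Field K] {Γ : Type*} [LinearOrderedCommGroupWithZero Γ] (w : Valuation K Γ)

theorem R3_big {T : K} (h : 1 < w T) : 1 < w (R3 T) := by
  have h0 : 0 < w T := lt_trans zero_lt_one h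
  have e1 : w (T + 27) = w T :=
    w.map_add_eq_of_lt_left (lt_of_le_of_lt (by exact_mod_cast w_nat w 27) h)
  have e2 : w (T + 3) = w T :=
    w.map_add_eq_of_lt_left (lt_of_le_of_lt (by exact_mod_cast w_nat w 3) h)
  rw [R3, map_div₀, map_mul, map_pow, e1, e2, mul_div_cancel_left₀ _ h0.ne']
  exact one_lt_pow₀ h (by norm_num)

theorem R3_small {T : K} (hT : T ≠ 0) (h : 1 < w (729 / T)) : 1 < w (R3 T) := by
  have h0 : 0 < w T := (w.pos_iff).2 hT
  have h3 : w (3 : K) ≤ 1 := by exact_mod_cast w_nat w 3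
  have a1 : w (729 : K) = w 3 ^ 6 := by rw [← map_pow]; norm_num
  have a2 : w (27 : K) = w 3 ^ 3 := by rw [← map_pow]; norm_num
  rw [map_div₀, one_lt_div₀ h0, a1] at h
  have e1 : w (T + 27) = w 27 := w.map_add_eq_of_lt_right
    (h.trans_le (by rw [a2]; exact pow_le_pow_right_of_le_one' h3 (by norm_num)))
  have e2 : w (T + 3) = w 3 := w.map_add_eq_of_lt_right
    (h.trans_le (pow_le_of_le_one zero_le h3 (by norm_num)))
  rw [R3, map_div₀, map_mul, map_pow, e1, e2, a2, ← pow_add, one_lt_div₀ h0]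
  exact h

theorem nb {x : K} (n : ℕ) (h1 : 1 < w x) : w (n / x) < 1 := by
  rw [map_div₀, div_lt_one₀ (lt_trans zero_lt_one h1)]
  exact (w_nat w n).trans_lt h1

theorem t_big {n z : K} (hz : z ≠ 0) (h : n + 5 + 9 / n = 1 / z - z) (k : 1 < w n) :
    1 < w (z ^ 2 * n ^ 3) := by
  have z0 : 0 < w z := (w.pos_iff).2 hz
  rw [map_mul, map_pow, map_pow]
  rcases lt_or_ge (w z) 1 with j | j
  · have e1 : w (n + 5 + 9 / n) = w n := by
      rw [add_assoc]
      refine w.map_add_eq_of_lt_left (w.map_add_lt ?_ ?_)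
      · exact lt_of_le_of_lt (by exact_mod_cast w_nat w 5) k
      · exact lt_trans (by exact_mod_cast nb w 9 k) k
    have e2 : w (1 / z - z) = w (1 / z) := by
      refine w.map_sub_eq_of_lt_left (j.trans ?_)
      rw [map_div₀, map_one, one_lt_div₀ z0]; exact j
    rw [h, e2, map_div₀, map_one, div_eq_iff z0.ne'] at e1
    calc 1 < w n := k
      _ = w n * (w n * w z) ^ 2 := by rw [← e1, one_pow, mul_one]
      _ = _ := by simp only [pow_succ, pow_zero, one_mul, mul_comm, mul_left_comm]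
  · exact (one_lt_pow₀ k (by norm_num : 3 ≠ 0)).trans_le
      (le_mul_of_one_le_left zero_le (one_le_pow₀ j))

variable [CharZero K]

/-- a pole of `n` or of `9 / n` is a pole of `j` -/
theorem poleA {n z : K} (hn : n ≠ 0) (hz : z ≠ 0) (h : n + 5 + 9 / n = 1 / z - z)
    (k : 1 < w n ∨ 1 < w (9 / n)) : 1 < w (jA n z) := by
  rcases k with k | k
  · refine R3_small w (div_ne_zero (by norm_num) (by positivity)) ?_
    rw [show (729 : K) / (729 / (z ^ 2 * n ^ 3)) = z ^ 2 * n ^ 3 by field_simp]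
    exact t_big w hz h k
  · refine R3_big w ?_
    rw [show (729 : K) / (z ^ 2 * n ^ 3) = (-1 / z) ^ 2 * (9 / n) ^ 3 by field_simp; norm_num]
    exact t_big w (w5 hz h).1 (w15 hn (w5 hz h).2).2 k

omit [CharZero K] in
/-- a pole of `z` or of `1 / z` is a pole of `n` or of `9 / n` -/
theorem pole_z {n z : K} (hz : z ≠ 0) (h : n + 5 + 9 / n = 1 / z - z)
    (k : 1 < w z ∨ 1 < w (1 / z)) : 1 < w n ∨ 1 < w (9 / n) := by
  by_contra j
  obtain ⟨j1, j2⟩ := not_or.1 j
  have b : w (1 / z - z) ≤ 1 := by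
    rw [← h]
    exact w.map_add_le (w.map_add_le (not_lt.1 j1) (by exact_mod_cast w_nat w 5)) (not_lt.1 j2)
  rcases k with k | k
  · rw [w.map_sub_eq_of_lt_right (lt_trans (by exact_mod_cast nb w 1 k) k)] at b
    exact absurd k (not_lt.2 b)
  · have : w z < 1 := by simpa using nb w 1 k
    rw [w.map_sub_eq_of_lt_left (this.trans k)] at b
    exact absurd k (not_lt.2 b)

/-- above `2`, if `j` has no pole then `n` and `z` are units -/
theorem unitsA (h2 : w (2 : K) < 1) {n z : K} (hn : n ≠ 0) (hz : z ≠ 0)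
    (h : n + 5 + 9 / n = 1 / z - z) (hj : w (jA n z) ≤ 1) : w n = 1 ∧ w z = 1 := by
  have a : ¬ (1 < w n ∨ 1 < w (9 / n)) := fun k => absurd (poleA w hn hz h k) (not_lt.2 hj)
  have b : ¬ (1 < w z ∨ 1 < w (1 / z)) := fun k => a (pole_z w hz h k)
  have h9 : w (9 : K) = 1 := by
    exact_mod_cast w_unit w Nat.prime_two (by exact_mod_cast h2) (n := 9) (by norm_num)
  have n0 : 0 < w n := (w.pos_iff).2 hn
  have z0 : 0 < w z := (w.pos_iff).2 hz
  rw [map_div₀, h9, one_lt_div₀ n0, not_or, not_lt, not_lt] at a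
  rw [map_div₀, map_one, one_lt_div₀ z0, not_or, not_lt, not_lt] at b
  exact ⟨le_antisymm a.1 a.2, le_antisymm b.1 b.2⟩

omit [CharZero K] in
theorem small_mul {x y : K} (hx : w x < 1) (hy : w y ≤ 1) : w (x * y) < 1 := by
  rw [map_mul]; exact mul_lt_one_of_nonneg_of_lt_one_left zero_le hx hy

omit [CharZero K] in
theorem not_small {x : K} (h : w x < 1) : x ≠ 1 := by rintro rfl; simp at h

omit [CharZero K] in
theorem small_of_pow {x : K} {k : ℕ} (h : w (x ^ k) < 1) : w x < 1 := by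
  by_contra j
  rw [map_pow] at h
  exact absurd h (not_lt.2 (one_le_pow₀ (not_lt.1 j)))

/-- residue field with two elements: every point reduces to a cusp -/
theorem two_val (h2 : w (2 : K) < 1) (hr : ∀ x : K, w x = 1 → w (x - 1) < 1) {n z : K}
    (hn : n ≠ 0) (hz : z ≠ 0) (h : n + 5 + 9 / n = 1 / z - z) : 1 < w (jA n z) := by
  by_contra k
  obtain ⟨a, b⟩ := unitsA w h2 hn hz h (not_lt.1 k)
  have hc := cubic hn hz h
  have a1 := hr n a
  have b1 := hr z b
  have i : ∀ m : ℕ, w (m : K) ≤ 1 := w_nat w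
  refine not_small w (x := (n - 1) * (1 - z ^ 2 - z * n - 6 * z) + (z - 1) * (-z - 16) +
    2 * (-7)) (w.map_add_lt (w.map_add_lt (small_mul w a1 ?_) (small_mul w b1 ?_))
    (small_mul w h2 ?_)) (by linear_combination -hc)
  · refine w.map_sub_le (w.map_sub_le (w.map_sub_le (by simp) (by simp [b])) (by simp [a, b])) ?_
    rw [map_mul, b, mul_one]; exact_mod_cast i 6
  · exact w.map_sub_le (by simp [b]) (by exact_mod_cast i 16)
  · rw [Valuation.map_neg]; exact_mod_cast i 7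

/-- a rational unit above `2` is congruent to `1` -/
theorem rat_unit (h2 : w (2 : K) < 1) {a : ℚ} (h : w (a : K) = 1) : w ((a : K) - 1) < 1 := by
  have h2' : w ((2 : ℕ) : K) < 1 := by exact_mod_cast h2
  have e : (a : K) * ((a.den : ℤ) : K) = (a.num : K) := by
    exact_mod_cast congrArg (Rat.cast : ℚ → K) (Rat.mul_den_eq_num a)
  have e' := congrArg w e
  rw [map_mul, h, one_mul] at e'
  have ev : ∀ m : ℤ, (2 : ℤ) ∣ m → w (m : K) < 1 := fun m hm =>
    (w_dvd w (p := 2) (by exact_mod_cast hm)).trans_lt h2'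
  have od : ∀ m : ℤ, ¬ (2 : ℤ) ∣ m → w (m : K) = 1 := fun m hm =>
    w_unit w Nat.prime_two h2' (by exact_mod_cast hm)
  have hd : ¬ (2 : ℤ) ∣ a.den := fun k => by
    have k' : ¬ (2 : ℤ) ∣ a.num := fun j => cop2 a ⟨j, k⟩
    exact absurd (ev _ k) (by rw [e', od _ k']; exact lt_irrefl _)
  have hn : ¬ (2 : ℤ) ∣ a.num := fun k =>
    absurd (ev _ k) (by rw [← e', od _ hd]; exact lt_irrefl _)
  have := ev (a.num - a.den) (by omega)
  rw [show ((a.num - a.den : ℤ) : K) = ((a : K) - 1) * ((a.den : ℤ) : K) by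
    rw [Int.cast_sub, ← e]; ring, map_mul, od _ hd, mul_one] at this
  exact this

/-- supersingular reduction above `2` -/
theorem ss_val (h2 : w (2 : K) < 1) {n z : K} (hn : n ≠ 0) (hz : z ≠ 0)
    (h : n + 5 + 9 / n = 1 / z - z) (hj : w (jA n z) < 1) :
    w n = 1 ∧ w z = 1 ∧ w (n ^ 2 + n + 1) < 1 ∧ w (z - 1) < 1 := by
  obtain ⟨a, b⟩ := unitsA w h2 hn hz h hj.le
  have hc := cubic hn hz h
  have h2' : w ((2 : ℕ) : K) < 1 := by exact_mod_cast h2
  have od : ∀ m : ℤ, ¬ (2 : ℤ) ∣ m → w (m : K) = 1 := fun m hm =>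
    w_unit w Nat.prime_two h2' (by exact_mod_cast hm)
  have i : ∀ m : ℕ, w (m : K) ≤ 1 := w_nat w
  obtain ⟨t, ht⟩ : ∃ t, t = z ^ 2 * n ^ 3 := ⟨_, rfl⟩
  have t1 : w t = 1 := by simp [ht, a, b]
  have t0 : t ≠ 0 := by rw [ht]; positivity
  have e : jA n z = (t + 27) * (t + 243) ^ 3 / t ^ 3 := by
    unfold jA R3; rw [← ht]; field_simp; ring
  rw [e, map_div₀, map_pow, t1, one_pow, div_one] at hj
  have t2 : w (t - 1) < 1 := by
    by_contra k
    have k1 : w (t - 1) = 1 := le_antisymm (w.map_sub_le t1.le (by simp)) (not_lt.1 k)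
    have c : ∀ m : ℕ, w (t - 1 + 2 * m) = 1 := fun m => by
      rw [w.map_add_eq_of_lt_left (by rw [k1]; exact small_mul w h2 (i m)), k1]
    have c1 := c 14
    have c2 := c 122
    rw [show t - 1 + 2 * ((14 : ℕ) : K) = t + 27 by push_cast; ring] at c1
    rw [show t - 1 + 2 * ((122 : ℕ) : K) = t + 243 by push_cast; ring] at c2
    rw [map_mul, map_pow, c1, c2] at hj
    simp at hj
  let N : w.integer := ⟨n, a.le⟩
  let Z : w.integer := ⟨z, b.le⟩
  have s1 : w (n ^ 2 + n + 1) < 1 := by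
    apply small_of_pow w (k := 2)
    have e1 : (n ^ 2 + n + 1) ^ 2 = (t - 1) * (n * (n ^ 2 + n + 1) + (n ^ 2 * z - n - 1)) +
        2 * (-((n ^ 3 + n ^ 2 + n - n ^ 3 * z - n ^ 3 * z - (1 + 1 + 1 + 1) * n ^ 2 * z) *
          (n ^ 2 * z - n - 1))) := by
      rw [ht]; linear_combination -(n ^ 2 * (n ^ 2 * z - n - 1)) * hc
    rw [e1]
    exact w.map_add_lt (small_mul w t2 (N * (N ^ 2 + N + 1) + (N ^ 2 * Z - N - 1)).2)
      (small_mul w h2 (-((N ^ 3 + N ^ 2 + N - N ^ 3 * Z - N ^ 3 * Z - (1 + 1 + 1 + 1) * N ^ 2 * Z) *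
          (N ^ 2 * Z - N - 1))).2)
  refine ⟨a, b, s1, small_of_pow w (k := 2) ?_⟩
  have e2 : n * (z - 1) ^ 2 = (n ^ 2 + n + 1) * (-z) +
      2 * (-(z * (n + n + 1 + 1 + 1 + 1)) - n * (z - 1)) := by linear_combination hc
  have s2 : w (n * (z - 1) ^ 2) < 1 := by
    rw [e2]
    exact w.map_add_lt (small_mul w s1 (-Z).2)
      (small_mul w h2 (-(Z * (N + N + 1 + 1 + 1 + 1)) - N * (Z - 1)).2)
  rwa [map_mul, a, one_mul] at s2

end val

variable {K : Type*} [Field K] [NumberField K]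

theorem res_two (v : HeightOneSpectrum (𝓞 K)) (hv : Ideal.absNorm v.asIdeal = 2) :
    v.valuation K (2 : K) < 1 ∧ ∀ x : K, v.valuation K x = 1 → v.valuation K (x - 1) < 1 := by
  constructor
  · have := Ideal.absNorm_mem v.asIdeal
    rw [hv] at this
    exact_mod_cast (lt_one_iff v 2).2 this
  intro x hx
  obtain ⟨a, ⟨d, hd⟩, e⟩ := v.exists_primeCompl_mul_eq_of_integer x hx.le
  have hd' : d ∉ v.asIdeal := hd
  have d1 : v.valuation K (algebraMap (𝓞 K) K d) = 1 :=
    le_antisymm (v.valuation_le_one d) (not_lt.1 fun k => hd' ((v.valuation_lt_one_iff_mem d).1 k))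
  have a1 : a ∉ v.asIdeal := fun k => by
    have : v.valuation K (algebraMap (𝓞 K) K a) < 1 := (v.valuation_lt_one_iff_mem a).2 k
    rw [← e, map_mul, hx, d1, one_mul] at this
    exact lt_irrefl _ this
  have hc : Nat.card (𝓞 K ⧸ v.asIdeal) = 2 := by rwa [Ideal.absNorm_apply, Submodule.cardQuot_apply] at hv
  obtain ⟨y, -, hy⟩ := (Nat.card_eq_two_iff' (0 : 𝓞 K ⧸ v.asIdeal)).1 hc
  have k : a - d ∈ v.asIdeal := by
    rw [← Ideal.Quotient.eq, hy _ (mt Ideal.Quotient.eq_zero_iff_mem.1 a1),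
      hy _ (mt Ideal.Quotient.eq_zero_iff_mem.1 hd')]
  have : v.valuation K (algebraMap (𝓞 K) K (a - d)) < 1 := (v.valuation_lt_one_iff_mem _).2 k
  rw [map_sub, ← e, ← sub_one_mul, map_mul, d1, mul_one] at this
  exact this

/-- **primes with residue field `𝔽₂` are poles** -/
theorem twoA {n z : K} (hn : n ≠ 0) (hz : z ≠ 0) (h : n + 5 + 9 / n = 1 / z - z)
    (v : HeightOneSpectrum (𝓞 K)) (hv : Ideal.absNorm v.asIdeal = 2) :
    1 < v.valuation K (jA n z) :=
  two_val _ (res_two v hv).1 (res_two v hv).2 hn hz h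

variable [Algebra.IsQuadraticExtension ℚ K] [IsTotallyComplex K]

/-- **the three families** -/
theorem famA {n z : K} (hn : n ≠ 0) (hz : z ≠ 0) (h : n + 5 + 9 / n = 1 / z - z)
    (hz' : ¬ ∃ q : ℚ, z = q) : (¬ ∃ q : ℚ, n = q) ∧ ∃ a : ℚ, a ≠ 0 ∧ a + 1 ≠ 0 ∧
      ((n = a * z ∧ ((a * (a + 1) : ℚ) : K) * z ^ 2 + (5 * a : ℚ) * z + (9 - a : ℚ) = 0) ∨
      (n = a * (z + 1 / 2) - 9 / 2 ∧ ((2 * (a * (a + 1)) : ℚ) : K) * z ^ 2 +
        ((a - 9) * (a + 1) : ℚ) * z + (2 * (9 - a) : ℚ) = 0) ∨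
      (n = a * (z + 1 / 2) - 2 ∧ ((2 * (a * (a + 1)) : ℚ) : K) * z ^ 2 +
        (a ^ 2 + 2 * a - 4 : ℚ) * z + (2 * (4 - a) : ℚ) = 0)) := by
  have hc := cubic hn hz h
  have hn' : ¬ ∃ q : ℚ, n = q := by
    rintro ⟨q, rfl⟩
    have q0 : q ≠ 0 := by rintro rfl; simp at hn
    exact hz' (quad_rat (A := q) (B := q ^ 2 + 5 * q + 9) (C := -q) q0
      (by nlinarith [sq_nonneg (q ^ 2 + 5 * q + 9), sq_nonneg q])
      (by push_cast; linear_combination hc))
  refine ⟨hn', ?_⟩
  obtain ⟨a, b, rfl⟩ := line hz' n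
  have ha0 : a ≠ 0 := by rintro rfl; exact hn' ⟨b, by simp⟩
  have ha1 : a + 1 ≠ 0 := by
    intro k
    obtain rfl : a = -1 := by linarith
    by_cases hb : b + 5 = 0
    · obtain rfl : b = -5 := by linarith
      exact hz' ⟨-1 / 2, by push_cast at hc ⊢; linear_combination (1 / 10 : K) * hc⟩
    · refine hz' (quad_rat (A := -(b + 5)) (B := b ^ 2 + 5 * b + 10) (C := -b) (neg_ne_zero.2 hb)
        (by nlinarith [sq_nonneg (b ^ 2 + 5 * b + 4), sq_nonneg (2 * b + 5)]) ?_)
      push_cast at hc ⊢; linear_combination hc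
  have hA : a * (a + 1) ≠ 0 := mul_ne_zero ha0 ha1
  obtain ⟨r, hr⟩ := third_root hz' (g3 := a * (a + 1)) (g2 := 2 * a * b + 5 * a + b)
    (g1 := b ^ 2 + 5 * b + 9 - a) (g0 := -b) hA (by push_cast; linear_combination hc)
  have hne : ∀ r : ℚ, z - r ≠ 0 := fun r k => hz' ⟨r, sub_eq_zero.1 k⟩
  refine ⟨a, ha0, ha1, ?_⟩
  rcases ratA (n := a * r + b) (z := r) (by linear_combination hr) with
    ⟨k1, k2⟩ | ⟨k1 | k1, k2 | k2⟩
  · left
    have hb : b = 0 := by rw [k2] at k1; linarith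
    subst hb
    refine ⟨by simp, mul_left_cancel₀ hz ?_⟩
    push_cast at hc ⊢; linear_combination hc
  · exfalso
    have hb : b = -2 * a - 2 := by rw [k2] at k1; linarith
    subst hb
    exact hz' (quad_rat (A := a * (a + 1)) (B := -2 * a ^ 2 + a - 2) (C := -a - 1)
      hA (by nlinarith [sq_nonneg (a ^ 2), sq_nonneg a]) (by
        apply mul_left_cancel₀ (hne 2)
        push_cast at hc ⊢; linear_combination hc))
  · right; right
    have hb : b = a / 2 - 2 := by rw [k2] at k1; linarith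
    subst hb
    refine ⟨by push_cast; ring, mul_left_cancel₀ (hne (-1 / 2)) ?_⟩
    push_cast at hc ⊢; linear_combination 2 * hc
  · exfalso
    have hb : b = -2 * a - 9 / 2 := by rw [k2] at k1; linarith
    subst hb
    exact hz' (quad_rat (A := a * (a + 1)) (B := -2 * a ^ 2 - 4 * a - 9 / 2) (C := -a - 9 / 4)
      hA (by nlinarith [sq_nonneg (2 * a ^ 2 + 5 * a + 9 / 2), sq_nonneg a]) (by
        apply mul_left_cancel₀ (hne 2)
        push_cast at hc ⊢; linear_combination hc))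
  · right; left
    have hb : b = a / 2 - 9 / 2 := by rw [k2] at k1; linarith
    subst hb
    refine ⟨by push_cast; ring, mul_left_cancel₀ (hne (-1 / 2)) ?_⟩
    push_cast at hc ⊢; linear_combination 2 * hc

/-- **outside the first family, the reduction above `2` is not supersingular** -/
theorem ord2 {n z : K} (hn : n ≠ 0) (hz : z ≠ 0) (h : n + 5 + 9 / n = 1 / z - z)
    (hz' : ¬ ∃ q : ℚ, z = q) (v : HeightOneSpectrum (𝓞 K)) (hv : (2 : 𝓞 K) ∈ v.asIdeal) :
    1 ≤ v.valuation K (jA n z) := by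
  by_contra k
  set w := v.valuation K
  have h2 : w (2 : K) < 1 := by exact_mod_cast (lt_one_iff v 2).2 (by exact_mod_cast hv)
  obtain ⟨a1, b1, s1, s2⟩ := ss_val w h2 hn hz h (not_le.1 k)
  let N : w.integer := ⟨n, a1.le⟩
  let Z : w.integer := ⟨z, b1.le⟩
  have fin : ¬ w (n - 1) < 1 := fun j => not_small w
    (x := n ^ 2 + n + 1 + (n - 1) * (-(n + 1 + 1)) + 2 * (-1))
    (w.map_add_lt (w.map_add_lt s1 (small_mul w j (-(N + 1 + 1)).2)) (small_mul w h2 (by simp)))
    (by ring)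
  have u1 : w (z + z + 1) = 1 := by
    rw [w.map_add_eq_of_lt_right (by rw [map_one, ← two_mul]; exact small_mul w h2 b1.le), map_one]
  obtain ⟨-, a, -, a0, ⟨e, -⟩ | ⟨e, f⟩ | ⟨e, -⟩⟩ := famA hn hz h hz'
  · have c : w (a : K) = 1 := by rw [e, map_mul, b1, mul_one] at a1; exact a1
    refine fin ?_
    rw [show n - 1 = ((a : K) - 1) * z + (z - 1) by rw [e]; ring]
    exact w.map_add_lt (small_mul w (rat_unit w h2 c) b1.le) s2
  · have a0' : (a : K) + 1 ≠ 0 := by exact_mod_cast a0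
    have e' : (((a - 9) / (a + 1) : ℚ) : K) = n * z := by
      rw [e]; push_cast at f ⊢; field_simp; linear_combination -f
    have c : w (((a - 9) / (a + 1) : ℚ) : K) = 1 := by rw [e', map_mul, a1, b1, one_mul]
    refine fin ?_
    rw [show n - 1 = ((((a - 9) / (a + 1) : ℚ) : K) - 1) + (z - 1) * (-n) by rw [e']; ring]
    exact w.map_add_lt (rat_unit w h2 c) (small_mul w s2 (-N).2)
  · have e' : ((a / 2 : ℚ) : K) * (z + z + 1) = n + 2 := by rw [e]; push_cast; ring
    have c : w ((a / 2 : ℚ) : K) = 1 := by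
      have := congrArg w e'
      rwa [map_mul, u1, mul_one, w.map_add_eq_of_lt_left (by rwa [a1]), a1] at this
    refine fin ?_
    rw [show n - 1 = (((a / 2 : ℚ) : K) - 1) * (z + z + 1) + 2 * (z - 1) by
      linear_combination -e']
    exact w.map_add_lt (small_mul w (rat_unit w h2 c) u1.le) (small_mul w h2 s2.le)

end Vale.Agent.Q017A
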