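import Vale.Agent.Q017A.Rel
import Vale.Agent.Q017B.D

/-!
# The model `n + 5 + 9 / n = 1 / z - z` of `X₀(15)`
-/

set_option linter.all false

namespace Vale.Agent.Q017A

open Vale.Agent.Q017B NumberField IsDedekindDomain

section model
variable {K : Type*} [Field K]

/-- the `j`-map -/
def jA (n z : K) : K := R3 (729 / (z ^ 2 * n ^ 3))

theorem cubic {n z : K} (hn : n ≠ 0) (hz : z ≠ 0) (h : n + 5 + 9 / n = 1 / z - z) :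
    z * (n ^ 2 + 5 * n + 9) - n * (1 - z ^ 2) = 0 := by
  field_simp at h; linear_combination h

variable [CharZero K]

theorem w5 {n z : K} (hz : z ≠ 0) (h : n + 5 + 9 / n = 1 / z - z) :
    -1 / z ≠ 0 ∧ n + 5 + 9 / n = 1 / (-1 / z) - -1 / z :=
  ⟨div_ne_zero (by norm_num) hz, by rw [h]; field_simp; ring⟩

theorem w15 {n z : K} (hn : n ≠ 0) (h : n + 5 + 9 / n = 1 / z - z) :
    9 / n ≠ 0 ∧ 9 / n + 5 + 9 / (9 / n) = 1 / z - z :=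
  ⟨div_ne_zero (by norm_num) hn, by rw [← h]; field_simp; ring⟩

theorem rel3 {n z : K} (hn : n ≠ 0) (hz : z ≠ 0) : Rel (jA n z) (jA (9 / n) (-1 / z)) := by
  have := Rel.s3 (729 / (z ^ 2 * n ^ 3)) (div_ne_zero (by norm_num) (by positivity))
  unfold jA
  convert this using 2
  field_simp
  norm_num

/-- the Hauptmodul of `X₀(5)` at the point `(n, -1 / z)` -/
def sA (n z : K) : K := -(n * z ^ 2 + 4 * n * z - n + z ^ 3 + 9 * z ^ 2 + 9 * z)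

theorem sA_mul {n z : K} (hn : n ≠ 0) (hz : z ≠ 0) (h : n + 5 + 9 / n = 1 / z - z) :
    sA n z * sA n (-1 / z) = 125 := by
  have hc := cubic hn hz h
  unfold sA
  field_simp
  linear_combination (-z ^ 4 - 8 * z ^ 3 - 14 * z ^ 2 + 8 * z - 1) * hc

theorem R5_sA {n z : K} (hn : n ≠ 0) (hz : z ≠ 0) (h : n + 5 + 9 / n = 1 / z - z) :
    R5 (sA n z) = jA n (-1 / z) := by
  have hc := cubic hn hz h
  have h0 : sA n z ≠ 0 := left_ne_zero_of_mul (by rw [sA_mul hn hz h]; norm_num)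
  have e : jA n (-1 / z) =
      (27 * z ^ 2 + n ^ 3) * (243 * z ^ 2 + n ^ 3) ^ 3 / (n ^ 9 * z ^ 2) := by
    unfold jA R3; field_simp; ring
  rw [e, R5, div_eq_div_iff h0 (by positivity)]
  unfold sA
  linear_combination (n ^ 13 * z ^ 13 + 24 * n ^ 13 * z ^ 12 + 234 * n ^ 13 * z ^ 11 + 1160 * n ^ 13 * z ^ 10 + 2895 * n ^ 13 * z ^ 9
      + 2544 * n ^ 13 * z ^ 8 - 2164 * n ^ 13 * z ^ 7 - 2544 * n ^ 13 * z ^ 6 + 2895 * n ^ 13 * z ^ 5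
      - 1160 * n ^ 13 * z ^ 4 + 234 * n ^ 13 * z ^ 3 - 24 * n ^ 13 * z ^ 2 + n ^ 13 * z + 5 * n ^ 12 * z ^ 14
      + 145 * n ^ 12 * z ^ 13 + 1711 * n ^ 12 * z ^ 12 + 10474 * n ^ 12 * z ^ 11 + 34409 * n ^ 12 * z ^ 10
      + 52655 * n ^ 12 * z ^ 9 + 7075 * n ^ 12 * z ^ 8 - 56116 * n ^ 12 * z ^ 7 - 2689 * n ^ 12 * z ^ 6
      + 30431 * n ^ 12 * z ^ 5 - 15635 * n ^ 12 * z ^ 4 + 3370 * n ^ 12 * z ^ 3 - 301 * n ^ 12 * z ^ 2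
      + n ^ 12 * z + n ^ 12 + 10 * n ^ 11 * z ^ 15 + 340 * n ^ 11 * z ^ 14 + 4745 * n ^ 11 * z ^ 13
      + 34900 * n ^ 11 * z ^ 12 + 143001 * n ^ 11 * z ^ 11 + 306244 * n ^ 11 * z ^ 10 + 227709 * n ^ 11 * z ^ 9
      - 221420 * n ^ 11 * z ^ 8 - 293375 * n ^ 11 * z ^ 7 + 135164 * n ^ 11 * z ^ 6 + 90171 * n ^ 11 * z ^ 5
      - 69604 * n ^ 11 * z ^ 4 + 16155 * n ^ 11 * z ^ 3 - 1300 * n ^ 11 * z ^ 2 + 10 * n ^ 10 * z ^ 16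
      + 390 * n ^ 10 * z ^ 15 + 6300 * n ^ 10 * z ^ 14 + 54310 * n ^ 10 * z ^ 13 + 266745 * n ^ 10 * z ^ 12
      + 723765 * n ^ 10 * z ^ 11 + 877571 * n ^ 10 * z ^ 10 - 146796 * n ^ 10 * z ^ 9 - 1153671 * n ^ 10 * z ^ 8
      - 280885 * n ^ 10 * z ^ 7 + 540615 * n ^ 10 * z ^ 6 + 51174 * n ^ 10 * z ^ 5 - 122309 * n ^ 10 * z ^ 4
      + 28131 * n ^ 10 * z ^ 3 - 1575 * n ^ 10 * z ^ 2 + 5 * n ^ 9 * z ^ 17 + 220 * n ^ 9 * z ^ 16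
      + 4030 * n ^ 9 * z ^ 15 + 39620 * n ^ 9 * z ^ 14 + 223600 * n ^ 9 * z ^ 13 + 707380 * n ^ 9 * z ^ 12
      + 1053220 * n ^ 9 * z ^ 11 + 39890 * n ^ 9 * z ^ 10 - 1584829 * n ^ 9 * z ^ 9 - 933356 * n ^ 9 * z ^ 8
      + 631274 * n ^ 9 * z ^ 7 + 490610 * n ^ 9 * z ^ 6 - 71065 * n ^ 9 * z ^ 5 - 78116 * n ^ 9 * z ^ 4
      + 14056 * n ^ 9 * z ^ 3 + 6 * n ^ 9 * z ^ 2 + n ^ 8 * z ^ 18 + 49 * n ^ 8 * z ^ 17 + 989 * n ^ 8 * z ^ 16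
      + 10500 * n ^ 8 * z ^ 15 + 61250 * n ^ 8 * z ^ 14 + 176714 * n ^ 8 * z ^ 13 + 97651 * n ^ 8 * z ^ 12
      - 654999 * n ^ 8 * z ^ 11 - 1062500 * n ^ 8 * z ^ 10 + 504375 * n ^ 8 * z ^ 9 + 1236520 * n ^ 8 * z ^ 8
      + 14005 * n ^ 8 * z ^ 7 - 194170 * n ^ 8 * z ^ 6 - 49875 * n ^ 8 * z ^ 5 - 5500 * n ^ 8 * z ^ 4
      - 625 * n ^ 8 * z ^ 3 - 125 * n ^ 8 * z ^ 2 - 9 * n ^ 7 * z ^ 17 - 396 * n ^ 7 * z ^ 16 - 7011 * n ^ 7 * z ^ 15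
      - 63000 * n ^ 7 * z ^ 14 - 291375 * n ^ 7 * z ^ 13 - 550926 * n ^ 7 * z ^ 12 + 369396 * n ^ 7 * z ^ 11
      + 2436876 * n ^ 7 * z ^ 10 + 1057500 * n ^ 7 * z ^ 9 - 2130750 * n ^ 7 * z ^ 8 - 905805 * n ^ 7 * z ^ 7
      - 16020 * n ^ 7 * z ^ 6 + 79830 * n ^ 7 * z ^ 5 - 11250 * n ^ 7 * z ^ 4 - 1125 * n ^ 7 * z ^ 3
      + 81 * n ^ 6 * z ^ 16 + 3159 * n ^ 6 * z ^ 15 + 48114 * n ^ 6 * z ^ 14 + 354375 * n ^ 6 * z ^ 13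
      + 1215000 * n ^ 6 * z ^ 12 + 1060209 * n ^ 6 * z ^ 11 - 3309984 * n ^ 6 * z ^ 10 - 5259249 * n ^ 6 * z ^ 9
      + 1488375 * n ^ 6 * z ^ 8 + 2288250 * n ^ 6 * z ^ 7 + 841995 * n ^ 6 * z ^ 6 + 44955 * n ^ 6 * z ^ 5
      + 186705 * n ^ 6 * z ^ 4 - 729 * n ^ 5 * z ^ 15 - 24786 * n ^ 5 * z ^ 14 - 316386 * n ^ 5 * z ^ 13
      - 1822500 * n ^ 5 * z ^ 12 - 4100625 * n ^ 5 * z ^ 11 + 937494 * n ^ 5 * z ^ 10 + 11980386 * n ^ 5 * z ^ 9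
      + 4187376 * n ^ 5 * z ^ 8 - 2642625 * n ^ 5 * z ^ 7 - 1822500 * n ^ 5 * z ^ 6 - 91125 * n ^ 5 * z ^ 5
      + 6561 * n ^ 4 * z ^ 14 + 190269 * n ^ 4 * z ^ 13 + 1961739 * n ^ 4 * z ^ 12 + 8201250 * n ^ 4 * z ^ 11
      + 9021375 * n ^ 4 * z ^ 10 - 15818571 * n ^ 4 * z ^ 9 - 19709244 * n ^ 4 * z ^ 8 - 1371249 * n ^ 4 * z ^ 7
      - 820125 * n ^ 4 * z ^ 6 - 59049 * n ^ 3 * z ^ 13 - 1417176 * n ^ 3 * z ^ 12 - 11160261 * n ^ 3 * z ^ 11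
      - 29524500 * n ^ 3 * z ^ 10 + 46412514 * n ^ 3 * z ^ 8 + 11750751 * n ^ 3 * z ^ 7 + 19131876 * n ^ 3 * z ^ 6
      + 531441 * n ^ 2 * z ^ 12 + 10097379 * n ^ 2 * z ^ 11 + 55269864 * n ^ 2 * z ^ 10 + 66430125 * n ^ 2 * z ^ 9
      - 66430125 * n ^ 2 * z ^ 8 - 4782969 * n * z ^ 11 - 66961566 * n * z ^ 10 - 210450636 * n * z ^ 9
      + 43046721 * z ^ 10 + 387420489 * z ^ 9 + 387420489 * z ^ 8) * hc

theorem rel5 {n z : K} (hn : n ≠ 0) (hz : z ≠ 0) (h : n + 5 + 9 / n = 1 / z - z) :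
    Rel (jA n z) (jA n (-1 / z)) := by
  obtain ⟨hz', h'⟩ := w5 hz h
  have e := sA_mul hn hz h
  have h0 : sA n (-1 / z) ≠ 0 := right_ne_zero_of_mul (by rw [e]; norm_num)
  have := Rel.s5 _ h0
  rw [R5_sA hn hz' h', show (125 : K) / sA n (-1 / z) = sA n z by rw [div_eq_iff h0, e],
    R5_sA hn hz h, show (-1 : K) / (-1 / z) = z by field_simp] at this
  exact this

theorem rel15 {n z : K} (hn : n ≠ 0) (hz : z ≠ 0) (h : n + 5 + 9 / n = 1 / z - z) :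
    Rel (jA n z) (jA (9 / n) z) := by
  have := (rel5 hn hz h).trans (rel3 hn (w5 hz h).1)
  rwa [show (-1 : K) / (-1 / z) = z by field_simp] at this

theorem map_jA (t : K ≃+* K) (n z : K) : t (jA n z) = jA (t n) (t z) := by
  simp [jA, R3, map_ofNat]

/-- the points with rational `z` are `ℚ`-curves -/
theorem qc_z {n z : K} (hn : n ≠ 0) (hz : z ≠ 0) (h : n + 5 + 9 / n = 1 / z - z) {q : ℚ}
    (hq : z = q) : QC (jA n z) := by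
  intro t
  have e : t z = z := by rw [hq]; simp
  rw [map_jA, e]
  rcases conj_inv t hn (q := 1 / q - q - 5) (c := 9) (by
    push_cast; rw [← hq]; linear_combination h) with k | k <;> rw [k]
  · exact Rel.refl _
  · exact_mod_cast rel15 hn hz h

end model

variable {K : Type*} [Field K] [NumberField K] [Algebra.IsQuadraticExtension ℚ K]
  [IsTotallyComplex K]

/-- a monic integral quadratic with positive non-square discriminant has no root -/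
theorem no_root (x : K) (b c : ℤ) (n : ℕ) (hn : ¬ IsSquare n) (h : b ^ 2 - 4 * c = n) :
    x ^ 2 + b * x + c ≠ 0 := by
  intro k
  have h' : (b : ℚ) ^ 2 - 4 * c = n := by exact_mod_cast h
  obtain ⟨q, rfl⟩ := quad_rat (x := x) (A := 1) (B := b) (C := c) one_ne_zero
    (by rw [mul_one, h']; positivity) (by push_cast; linear_combination k)
  have k' : q ^ 2 + b * q + c = 0 := by exact_mod_cast k
  exact no_sq (s := 2 * q + b) hn (by linear_combination 4 * k' + h')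

/-- **from the fibre product of `X₀(3)` and `X₀(5)` to the model** -/
theorem model {T S : K} (hT : T ≠ 0) (hS : S ≠ 0) (h : R3 T = R5 S) (h0 : R3 T ≠ 0) :
    ∃ n z : K, n ≠ 0 ∧ z ≠ 0 ∧ n + 5 + 9 / n = 1 / z - z ∧ R3 T = jA n z := by
  have hF : (T + 27) * (T + 3) ^ 3 * S - (S ^ 2 + 10 * S + 5) ^ 3 * T = 0 := by
    unfold R3 R5 at h; field_simp at h; linear_combination h
  have h3 : T + 3 ≠ 0 := by intro k; apply h0; simp [R3, k]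
  have h4 : S ^ 2 + 4 * S - 1 ≠ 0 := by
    have := no_root S 4 (-1) 20 (by decide +kernel) (by norm_num)
    push_cast at this; rwa [sub_eq_add_neg]
  obtain ⟨D, hD⟩ : ∃ D, D = (T + 3) * (S ^ 2 + 4 * S - 1) := ⟨_, rfl⟩
  obtain ⟨N, hN⟩ : ∃ N, N = T ^ 2 + 18 * T - 3 * S ^ 3 - 39 * S ^ 2 - 105 * S := ⟨_, rfl⟩
  have hD0 : D ≠ 0 := hD ▸ mul_ne_zero h3 h4
  have hG : N ^ 5 * D * T ^ 2 - (D ^ 2 - 5 * N * D - N ^ 2) * ((D ^ 2 - 5 * N * D - N ^ 2) ^ 2 -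
      27 * N ^ 2 * D ^ 2) * T + 729 * N * D ^ 5 = 0 := by
    rw [hD, hN]
    linear_combination (T ^ 9 * S + 4 * T ^ 9 + 72 * T ^ 8 * S + 288 * T ^ 8 - 15 * T ^ 7 * S ^ 4 - 210 * T ^ 7 * S ^ 3
      - 948 * T ^ 7 * S ^ 2 + 534 * T ^ 7 * S + 7707 * T ^ 7 + T ^ 6 * S ^ 6 - 6 * T ^ 6 * S ^ 5
      - 855 * T ^ 6 * S ^ 4 - 11120 * T ^ 6 * S ^ 3 - 50337 * T ^ 6 * S ^ 2 - 53250 * T ^ 6 * S
      + 89639 * T ^ 6 + 45 * T ^ 5 * S ^ 7 + 1476 * T ^ 5 * S ^ 6 + 15579 * T ^ 5 * S ^ 5 + 63765 * T ^ 5 * S ^ 4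
      - 2115 * T ^ 5 * S ^ 3 - 699948 * T ^ 5 * S ^ 2 - 1259271 * T ^ 5 * S + 354627 * T ^ 5 + 2052 * T ^ 4 * S ^ 7
      + 53838 * T ^ 4 * S ^ 6 + 544968 * T ^ 4 * S ^ 5 + 2640870 * T ^ 4 * S ^ 4 + 5664060 * T ^ 4 * S ^ 3
      + 1729026 * T ^ 4 * S ^ 2 - 7589808 * T ^ 4 * S - 388854 * T ^ 4 - 1080 * T ^ 3 * S ^ 9 - 32400 * T ^ 3 * S ^ 8
      - 362394 * T ^ 3 * S ^ 7 - 1864188 * T ^ 3 * S ^ 6 - 3292974 * T ^ 3 * S ^ 5 + 8830215 * T ^ 3 * S ^ 4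
      + 47704140 * T ^ 3 * S ^ 3 + 61638408 * T ^ 3 * S ^ 2 + 6809832 * T ^ 3 * S - 25083 * T ^ 3
      + 243 * T ^ 2 * S ^ 11 + 5832 * T ^ 2 * S ^ 10 + 37665 * T ^ 2 * S ^ 9 - 238140 * T ^ 2 * S ^ 8
      - 5262894 * T ^ 2 * S ^ 7 - 36422055 * T ^ 2 * S ^ 6 - 131964552 * T ^ 2 * S ^ 5 - 256278735 * T ^ 2 * S ^ 4
      - 225497925 * T ^ 2 * S ^ 3 - 38439441 * T ^ 2 * S ^ 2 - 154305 * T ^ 2 * S + 41067 * T ^ 2
      + 4374 * T * S ^ 11 + 148716 * T * S ^ 10 + 2135970 * T * S ^ 9 + 16927380 * T * S ^ 8 + 80499825 * T * S ^ 7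
      + 231956136 * T * S ^ 6 + 383330799 * T * S ^ 5 + 306701235 * T * S ^ 4 + 66583215 * T * S ^ 3
      + 4662684 * T * S ^ 2 - 873342 * T * S + 44469 * T - 729 * S ^ 12 - 24057 * S ^ 11 - 328050 * S ^ 10
      - 2387475 * S ^ 9 - 9852435 * S ^ 8 - 21865626 * S ^ 7 - 18787788 * S ^ 6 + 10738170 * S ^ 5
      + 15473025 * S ^ 4 - 12834045 * S ^ 3 + 3766014 * S ^ 2 - 500823 * S + 25515) * hF
  obtain ⟨z, rfl⟩ : ∃ z, N = z * D := ⟨N / D, by field_simp⟩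
  have hG' : z ^ 5 * T ^ 2 - (1 - 5 * z - z ^ 2) * ((1 - 5 * z - z ^ 2) ^ 2 - 27 * z ^ 2) * T +
      729 * z = 0 := by
    apply mul_left_cancel₀ (pow_ne_zero 6 hD0)
    linear_combination hG
  clear hG hN hD hF
  have hz : z ≠ 0 := by rintro rfl; apply hT; linear_combination -hG'
  obtain ⟨u, hu⟩ : ∃ u, u = 1 / z - z - 5 := ⟨_, rfl⟩
  obtain ⟨Y, hY⟩ : ∃ Y, Y = 729 / (T * z ^ 2) := ⟨_, rfl⟩
  have hq : Y ^ 2 - (u ^ 3 - 27 * u) * Y + 729 = 0 := by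
    rw [hY, hu]; field_simp; linear_combination 729 * hG'
  have hu9 : u ^ 2 - 9 ≠ 0 := by
    have a1 := no_root z 8 (-1) 68 (by decide +kernel) (by norm_num)
    have a2 := no_root z 2 (-1) 8 (by decide +kernel) (by norm_num)
    push_cast at a1 a2
    intro k
    apply mul_ne_zero a1 a2
    rw [hu] at k; field_simp at k; linear_combination k
  obtain ⟨n, hn⟩ : ∃ n, Y + 9 * u = n * (u ^ 2 - 9) := ⟨(Y + 9 * u) / (u ^ 2 - 9), by field_simp⟩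
  have e1 : n ^ 2 - u * n + 9 = 0 := by
    apply mul_left_cancel₀ (pow_ne_zero 2 hu9)
    linear_combination hq - (n * (u ^ 2 - 9) + Y + 9 * u - u * (u ^ 2 - 9)) * hn
  have hn0 : n ≠ 0 := by rintro rfl; norm_num at e1
  have e2 : n ^ 3 = Y := by linear_combination (n + u) * e1 - hn
  refine ⟨n, z, hn0, hz, ?_, ?_⟩
  · have : n + 9 / n = u := by field_simp; linear_combination e1
    linear_combination this + hu
  · unfold jA; rw [e2, hY]; congr 1; field_simp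

end Vale.Agent.Q017A
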