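import Vale.Agent.Q017A.NoRoot
import Vale.Agent.Q017A.Model
import Vale.Agent.Q017B.E

/-!
# Points of `X(s3, s5⁺)` and `X(ns3, s5⁺)` over imaginary quadratic fields
-/

set_option linter.all false

namespace Vale.Agent.Q017A

open Vale.Agent.Q017B NumberField

theorem rat45c {x y : ℚ} (h : y ^ 2 = x * (x ^ 2 + 21 * x + 144)) : x = 0 := by
  by_contra hx
  have h2 : (y / x) ^ 2 = x + 21 + 144 / x := by field_simp; linear_combination h
  rcases rat45' (x := (y / x) ^ 2 + 3) (y := y / x * (x - 144 / x)) (by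
    rw [mul_pow, h2]; field_simp; ring) with k | k | k
  · nlinarith [sq_nonneg (y / x)]
  · have : x + 21 + 144 / x = 0 := by linarith
    field_simp at this
    nlinarith [sq_nonneg (2 * x + 21)]
  · exact no_sq (s := y / x) (n := 45) (by decide +kernel) (by push_cast; linarith)

/-- the list of rational points of `75c` and of its twist by `-3` -/
def R75 (d : ℚ) : Prop := ∀ X W : ℚ, d * W ^ 2 = 4 * X ^ 3 + 28 * X ^ 2 + 72 * X + 81 →
  d = 1 ∧ (X = 0 ∨ X = -3)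

theorem jacq {d : ℚ} (hd : d = 1 ∨ d = -3) {th eta : ℚ}
    (h : eta ^ 2 = (th + 4 * d) * (th ^ 2 + d * th + 4 * d ^ 2)) :
    th = -4 * d ∨ (d = 1 ∧ th = 0) := by
  rcases hd with rfl | rfl
  · rcases rat15c (x := th + 4) (y := eta) (by rw [h]; ring) with k | k
    · left; linarith
    · right; exact ⟨rfl, by linarith⟩
  · have := rat45c (x := th - 12) (y := eta) (by rw [h]; ring)
    left; linarith

variable {K : Type*} [Field K] [NumberField K] [Algebra.IsQuadraticExtension ℚ K]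
  [IsTotallyComplex K]

theorem pure {y z : K} (hy : ¬ ∃ q : ℚ, y = q) {a b : ℚ} (h1 : y ^ 2 = a) (h2 : z ^ 2 = b) :
    (∃ q : ℚ, z = q) ∨ ∃ q : ℚ, z = q * y := by
  obtain ⟨l, m, rfl⟩ := line hy z
  have k := indep hy (a := 2 * l * m) (b := l ^ 2 * a + m ^ 2 - b) (by
    push_cast; linear_combination h2 - (l : K) ^ 2 * h1)
  rcases mul_eq_zero.1 k.1 with j | j
  · left; exact ⟨m, by rw [show l = 0 by linarith]; simp⟩
  · right; exact ⟨l, by rw [j]; simp⟩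

theorem coreH {d : ℚ} (hd : d = 1 ∨ d = -3) (hR : R75 d) {X W y : K}
    (hW : W ^ 2 - (1 + X ^ 2) * W + 1 - X - X ^ 2 = 0)
    (hy : y ^ 2 = d * (X * (X + 1) * (X ^ 2 + X + 4))) :
    (∃ q : ℚ, X * (W + 1) = q) ∨ X ^ 2 + X + 4 = 0 := by
  have d0 : d ≠ 0 := by rcases hd with rfl | rfl <;> norm_num
  obtain ⟨y1, hy1⟩ : ∃ y1, y1 = 2 * W - (1 + X ^ 2) := ⟨_, rfl⟩
  have h1 : y1 ^ 2 = (X + 1) * (X ^ 3 - X ^ 2 + 7 * X - 3) := by
    rw [hy1]; linear_combination 4 * hW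
  have hB : X ^ 2 + X - 1 ≠ 0 := by
    have := no_root X 1 (-1) 5 (by decide +kernel) (by norm_num)
    push_cast at this; rwa [one_mul, ← sub_eq_add_neg] at this
  by_cases hX1 : X + 1 = 0
  · left
    have e : X = -1 := by linear_combination hX1
    subst e
    have : W = 1 := by
      have : (W - 1) ^ 2 = 0 := by linear_combination hW
      linear_combination pow_eq_zero_iff two_ne_zero |>.1 this
    exact ⟨-2, by rw [this]; norm_num⟩
  obtain ⟨x, hx⟩ : ∃ x, x * (X ^ 2 + X - 1) = X ^ 3 + X ^ 2 + 4 * X :=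
    ⟨_, div_mul_cancel₀ _ hB⟩
  obtain ⟨y3, hy3⟩ : ∃ y3, y3 = y * y1 * ((X ^ 3 + 4 * X ^ 2 + 2 * X + 2) /
    ((X + 1) * (X ^ 2 + X - 1) ^ 2)) := ⟨_, rfl⟩
  have h3 : y3 ^ 2 = d * x ^ 4 + (4 * d : ℚ) * x ^ 3 + (-8 * d : ℚ) * x ^ 2 + (12 * d : ℚ) * x +
      (0 : ℚ) := by
    rw [hy3, mul_pow, mul_pow, hy, h1, eq_div_of_mul_eq hB hx]
    push_cast; field_simp; ring
  by_cases hX : ∃ q : ℚ, X = q
  · obtain ⟨X, rfl⟩ := hX
    left
    by_cases h0 : X = 0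
    · exact ⟨0, by simp [h0]⟩
    by_cases hq : ∃ q : ℚ, y1 = q
    · obtain ⟨q, hq⟩ := hq
      exact ⟨X * ((q + 1 + X ^ 2) / 2 + 1), by push_cast; rw [← hq, hy1]; ring⟩
    exfalso
    have hB' : X ^ 2 + X - 1 ≠ 0 := by exact_mod_cast hB
    have hX1' : X + 1 ≠ 0 := by exact_mod_cast hX1
    rcases pure hq (a := (X + 1) * (X ^ 3 - X ^ 2 + 7 * X - 3))
      (b := d * (X * (X + 1) * (X ^ 2 + X + 4))) (z := y) (by rw [h1]; push_cast; ring)
      (by rw [hy]; push_cast; ring) with ⟨q, rfl⟩ | ⟨q, rfl⟩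
    · have hy' : q ^ 2 = d * (X * (X + 1) * (X ^ 2 + X + 4)) := by exact_mod_cast hy
      rcases jacq hd (th := 4 * d / X) (eta := 4 * d * q / X ^ 2) (by
        rw [div_pow, mul_pow, hy']; field_simp; ring) with k | ⟨-, k⟩
      · apply hX1'; field_simp at k; linear_combination k
      · exact div_ne_zero (mul_ne_zero four_ne_zero d0) h0 k
    · obtain ⟨x, rfl⟩ : ∃ r : ℚ, x = r := ⟨(X ^ 3 + X ^ 2 + 4 * X) / (X ^ 2 + X - 1), by
        rw [eq_div_of_mul_eq hB hx]; push_cast; ring⟩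
      obtain ⟨y3, rfl⟩ : ∃ r : ℚ, y3 = r := ⟨q * ((X + 1) * (X ^ 3 - X ^ 2 + 7 * X - 3)) *
          ((X ^ 3 + 4 * X ^ 2 + 2 * X + 2) / ((X + 1) * (X ^ 2 + X - 1) ^ 2)), by
        rw [hy3]; push_cast; rw [← h1]; ring⟩
      have hx' : x * (X ^ 2 + X - 1) = X ^ 3 + X ^ 2 + 4 * X := by exact_mod_cast hx
      have h3' : y3 ^ 2 = d * x ^ 4 + 4 * d * x ^ 3 + -8 * d * x ^ 2 + 12 * d * x + 0 := by
        exact_mod_cast h3
      have x0 : x ≠ 0 := by
        rintro rfl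
        have : X * (X ^ 2 + X + 4) = 0 := by linear_combination -hx'
        rcases mul_eq_zero.1 this with k | k
        · exact h0 k
        · nlinarith [sq_nonneg (2 * X + 1)]
      obtain ⟨-, k | k⟩ := hR (3 / x - 3) (3 * y3 / (d * x ^ 2)) (by
        rw [div_pow, mul_pow, h3']; field_simp; ring)
      · have : x = 1 := by field_simp at k; linarith
        subst this
        exact no_rat [1, 3, 0, 1] 2 (by norm_num) (by decide) X
          (by simp only [ev]; push_cast; linear_combination -hx')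
      · exact div_ne_zero three_ne_zero x0 (by linarith)
  right
  obtain ⟨T, N, l, m, th, eta, hT, hD, -, e0, e1, e2, e3⟩ := euler hX (a := d) (b := 2 * d)
    (c := 5 * d) (d := 4 * d) (e := 0) (y := y) (by rw [hy]; push_cast; ring)
  have N0 : 0 < N := by nlinarith [sq_nonneg T]
  have cls : T = -1 ∨ (d = 1 ∧ N ^ 2 + N * (T + 1) - 1 = 0) := by
    have e4 : 4 * l ^ 2 * m ^ 2 = (2 * l * m) ^ 2 := by ring
    rw [e1, e2, e3] at e4
    rcases jacq hd (th := th) (eta := eta) (by rw [e0]; ring) with rfl | ⟨rfl, rfl⟩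
    · left
      have : (d * (T + 1)) ^ 2 = 0 := by linear_combination (-1 / 16) * e4
      have := (mul_eq_zero.1 (pow_eq_zero_iff two_ne_zero |>.1 this)).resolve_left d0
      linarith
    · right; exact ⟨rfl, by linear_combination (1 / 16) * e4⟩
  by_cases hxq : ∃ q : ℚ, x = q
  · obtain ⟨x, rfl⟩ := hxq
    have k := indep hX (a := T ^ 2 - N + T + 4 - x * (T + 1)) (b := -(T + 1) * N + x * (N + 1)) (by
      push_cast; linear_combination -hx - (X + T + 1 - x) * hT)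
    rcases cls with rfl | ⟨-, j⟩
    · have : N = 4 := by linarith [k.1]
      subst this
      push_cast at hT; linear_combination hT
    · exfalso
      have a1 : T = (1 - N ^ 2 - N) / N := by field_simp; linear_combination j
      have a2 : (T ^ 2 - N + T + 4) * (N + 1) - (T + 1) ^ 2 * N = 0 := by
        linear_combination (N + 1) * k.1 + (T + 1) * k.2
      rw [a1] at a2
      field_simp at a2
      refine no_rat [1, -2, 3, 1] 2 (by norm_num) (by decide) N (mul_left_cancel₀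
        (show N + 1 ≠ 0 by positivity) ?_)
      simp only [ev]; push_cast; linear_combination a2
  exfalso
  obtain ⟨T', N', l', m', th', eta', hT', -, -, f0, f1, f2, f3⟩ := euler hxq h3
  obtain ⟨rfl, k⟩ := hR ((th' / d - 12) / 4) (eta' / (4 * d ^ 2)) (by
    rw [div_pow, f0]; field_simp; ring)
  have con : N' ^ 2 - N' * (T' + 2) + 3 = 0 ∨
      (T' + 2) ^ 2 * (N' ^ 2 + 12 * N') - (6 - 6 * T' - N' * T' - 2 * N') ^ 2 = 0 := by
    have e4 : 4 * l' ^ 2 * m' ^ 2 = (2 * l' * m') ^ 2 := by ring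
    rw [f1, f2, f3] at e4
    rcases k with k | k
    · obtain rfl : th' = 12 := by linarith
      right; linear_combination (1 / 4) * e4
    · obtain rfl : th' = 0 := by linarith
      left; linear_combination (-1 / 48) * e4
  have N1 : N + 1 ≠ 0 := by positivity
  rcases cls with rfl | ⟨-, j⟩
  · have e : x * (N + 1) = (N - 4) * X := by
      push_cast at hT; linear_combination -hx - (X - x) * hT
    obtain ⟨k1, k2⟩ := cmp hxq (A := (N + 1) ^ 2) (B := (N - 4) * (N + 1)) (C := N * (N - 4) ^ 2)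
      (by
        push_cast at hT ⊢
        linear_combination (x * (N + 1) + (N - 4) * X + (N - 4)) * e + ((N : K) - 4) ^ 2 * hT) hT'
    have a1 : T' = -(N - 4) / (N + 1) := by
      field_simp; apply mul_left_cancel₀ N1; linear_combination k1
    have a2 : N' = N * (N - 4) ^ 2 / (N + 1) ^ 2 := by field_simp; linear_combination -k2
    rw [a1, a2] at con
    rcases con with c | c <;> field_simp at c
    · exact no_rat [3, -84, 210, -210, 100, -17, 1] 2 (by norm_num) (by decide) N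
        (by simp only [ev]; push_cast; linear_combination c)
    · refine no_rat [-9, 99, -24, -6, 1] 2 (by norm_num) (by decide) N (mul_left_cancel₀
        (pow_ne_zero 3 N1) ?_)
      simp only [ev]; push_cast; linear_combination (1 / 36) * c
  · have hg : (N : K) * X ^ 2 - (1 - N ^ 2 - N) * X + N ^ 2 = 0 := by
      have j' : ((N ^ 2 + N * (T + 1) - 1 : ℚ) : K) = 0 := by rw [j]; simp
      push_cast at j'
      linear_combination N * hT + X * j'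
    obtain ⟨k1, k2⟩ := cmp hxq (A := N * (N + 1) ^ 2 * (N ^ 2 - 3 * N + 1))
      (B := (N ^ 3 - 3 * N ^ 2 - 1) * (N + 1) * (N ^ 2 - 3 * N + 1))
      (C := -(N ^ 2 * (2 * N ^ 2 - N + 2) ^ 2)) (by
        apply mul_left_cancel₀ (pow_ne_zero 2 hB)
        push_cast
        linear_combination (X ^ 4 * N ^ 4 - X ^ 4 * N ^ 3 - 4 * X ^ 4 * N ^ 2 - X ^ 4 * N + X ^ 4 - 3 * X ^ 3 * N ^ 4
          + 8 * X ^ 3 * N ^ 3 + 2 * X ^ 3 * N ^ 2 - 7 * X ^ 3 * N + 2 * X ^ 3 - X ^ 2 * N ^ 4 - 19 * X ^ 2 * N ^ 3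
          - 6 * X ^ 2 * N ^ 2 - 9 * X ^ 2 * N + 4 * X ^ 2 + 8 * X * N ^ 4 + 12 * X * N ^ 3 + 3 * X * N ^ 2
          - 23 * X * N + 3 * X - 4 * N ^ 4 + 4 * N ^ 3 - 9 * N ^ 2 + 4 * N - 4) * hg +
          (N * (N + 1) ^ 2 * (N ^ 2 - 3 * N + 1) * (x * (X ^ 2 + X - 1) + (X ^ 3 + X ^ 2 + 4 * X)) +
          (N ^ 3 - 3 * N ^ 2 - 1) * (N + 1) * (N ^ 2 - 3 * N + 1) * (X ^ 2 + X - 1)) * hx) hT'
    have N2 : N ^ 2 - 3 * N + 1 ≠ 0 := fun i =>
      no_sq (s := 2 * N - 3) (n := 5) (by decide +kernel) (by push_cast; linear_combination 4 * i)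
    obtain ⟨D, hD⟩ : ∃ D, D = N ^ 2 - 3 * N + 1 := ⟨_, rfl⟩
    rw [← hD] at k1 k2 N2
    have a1 : T' = -(N ^ 3 - 3 * N ^ 2 - 1) / (N * (N + 1)) := by
      field_simp; apply mul_left_cancel₀ (mul_ne_zero N1 N2); linear_combination k1
    have a2 : N' = -(N * (2 * N ^ 2 - N + 2) ^ 2) / ((N + 1) ^ 2 * D) := by
      field_simp; apply mul_left_cancel₀ N0.ne'; linear_combination -k2
    rw [a1, a2] at con
    rcases con with c | c <;> field_simp at c <;> subst hD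
    · exact no_rat [7, -10, 0, -70, 175, -156, 90, -75, 30, 0, 12] 11 (by norm_num)
        (by decide +kernel) N (by simp only [ev]; push_cast; linear_combination c)
    · refine no_rat [-1, 4, -11, 7, -27, 9, -36, 9, -18, 3] 2 (by norm_num) (by decide) N
        (mul_left_cancel₀ (mul_ne_zero (pow_ne_zero 3 N1) N2) ?_)
      simp only [ev]; push_cast; linear_combination (1 / 36) * c

/-- **rows `s3 × s5⁺` and `ns3 × s5⁺`**: the `j`-invariant is rational -/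
theorem rowH {d : ℚ} (hd : d = 1 ∨ d = -3) (hR : R75 d) {s J y : K} (hc : s ^ 2 + 5 * s + 5 ≠ 0)
    (hJ : J ^ 3 = (s + 5) ^ 3 * (s ^ 2 - 5) ^ 3 * (s ^ 2 + 5 * s + 10) ^ 3 / (s ^ 2 + 5 * s + 5) ^ 5)
    (hy : y ^ 2 = d * (J ^ 2 + 12 * J + 144)) : ∃ q : ℚ, J ^ 3 = q := by
  by_contra hq
  have hs : ¬ ∃ q : ℚ, s = q := by
    rintro ⟨q, rfl⟩
    exact hq ⟨(q + 5) ^ 3 * (q ^ 2 - 5) ^ 3 * (q ^ 2 + 5 * q + 10) ^ 3 / (q ^ 2 + 5 * q + 5) ^ 5, by
      rw [hJ]; push_cast; ring⟩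
  obtain ⟨n, hn⟩ : ∃ n, n = (s + 5) * (s ^ 2 - 5) * (s ^ 2 + 5 * s + 10) := ⟨_, rfl⟩
  have hJ' : J ^ 3 * (s ^ 2 + 5 * s + 5) ^ 5 = n ^ 3 := by
    rw [hJ, div_mul_cancel₀ _ (pow_ne_zero 5 hc), hn]; ring
  have n0 : n ≠ 0 := by
    rintro rfl
    refine hq ⟨0, ?_⟩
    rw [Rat.cast_zero]
    exact (mul_eq_zero.1 (hJ'.trans (by ring))).resolve_right (pow_ne_zero 5 hc)
  obtain ⟨W, hW⟩ : ∃ W, W * n = J * (s ^ 2 + 5 * s + 5) ^ 2 :=
    ⟨J * (s ^ 2 + 5 * s + 5) ^ 2 / n, by field_simp⟩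
  have h3 : W ^ 3 = s ^ 2 + 5 * s + 5 := by
    apply mul_right_cancel₀ (pow_ne_zero 3 n0)
    rw [← mul_pow, hW, ← hJ']; ring
  have W0 : W ≠ 0 := by rintro rfl; apply hc; rw [← h3]; ring
  have h5 : J * W ^ 5 = n := by
    apply mul_left_cancel₀ W0
    rw [hW, ← h3]; ring
  have W1 : W + 1 ≠ 0 := by
    intro k
    obtain rfl : W = -1 := by linear_combination k
    have : (s + 2) * (s + 3) = 0 := by linear_combination -h3
    rcases mul_eq_zero.1 this with i | i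
    · exact hs ⟨-2, by push_cast; linear_combination i⟩
    · exact hs ⟨-3, by push_cast; linear_combination i⟩
  obtain ⟨X, hX⟩ : ∃ X, s = X * (W + 1) - 2 := ⟨(s + 2) / (W + 1), by field_simp; ring⟩
  have hE : W ^ 2 - (1 + X ^ 2) * W + 1 - X - X ^ 2 = 0 := by
    apply mul_left_cancel₀ W1
    rw [hX] at h3
    linear_combination h3
  obtain ⟨M, hM⟩ : ∃ M, M = s ^ 6 + 14 * s ^ 5 + 79 * s ^ 4 + 240 * s ^ 3 + 515 * s ^ 2 + 850 * s +
    725 := ⟨_, rfl⟩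
  have i3 : (J ^ 3 - 1728) * W ^ 15 = (s + 2) * (s ^ 2 - 20) * M ^ 2 := by
    rw [show W ^ 15 = (W ^ 3) ^ 5 by ring, h3, sub_mul, hJ', hn, hM]; ring
  have j1 : J ^ 3 - 1728 ≠ 0 := fun k => hq ⟨1728, by push_cast; linear_combination k⟩
  have nz := mul_ne_zero j1 (pow_ne_zero 15 W0)
  rw [i3] at nz
  have M0 : M ≠ 0 := fun k => nz (by rw [k]; ring)
  obtain ⟨b, hb⟩ : ∃ b, b = X ^ 2 - 4 + (X ^ 2 - X) * W := ⟨_, rfl⟩
  obtain ⟨g, hg⟩ : ∃ g, g = X ^ 5 + 2 * X ^ 4 + 3 * X ^ 3 + 4 * X ^ 2 - X + 3 +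
    (X ^ 5 + X ^ 4 + 5 * X ^ 3 + 5 * X ^ 2 + 6 * X) * W := ⟨_, rfl⟩
  have i2 : s ^ 2 - 20 = (X ^ 2 + X + 4) * b := by
    rw [hX, hb]; linear_combination (X ^ 2) * hE
  have i1 : (n - 12 * W ^ 5) * (W + 1) * (X + 1) = b * g ^ 2 := by
    rw [hn, hX, hb, hg]
    linear_combination (X ^ 10 * W ^ 2 + 2 * X ^ 10 * W + X ^ 10 + X ^ 9 * W ^ 2 + 4 * X ^ 9 * W + 3 * X ^ 9 + X ^ 8 * W ^ 3
      + 9 * X ^ 8 * W ^ 2 + 11 * X ^ 8 * W + 4 * X ^ 8 + X ^ 7 * W ^ 3 + 10 * X ^ 7 * W ^ 2 + 17 * X ^ 7 * W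
      + 3 * X ^ 7 + X ^ 6 * W ^ 4 + 7 * X ^ 6 * W ^ 3 + 22 * X ^ 6 * W ^ 2 - 3 * X ^ 6 * W - 16 * X ^ 6
      + X ^ 5 * W ^ 4 + 7 * X ^ 5 * W ^ 3 + 9 * X ^ 5 * W ^ 2 - 23 * X ^ 5 * W - 35 * X ^ 5 - 22 * X ^ 4 * W ^ 2
      - 122 * X ^ 4 * W - 52 * X ^ 4 - 12 * X ^ 3 * W ^ 3 - 58 * X ^ 3 * W ^ 2 - 130 * X ^ 3 * W
      - 78 * X ^ 3 - 12 * X ^ 2 * W ^ 3 - 60 * X ^ 2 * W ^ 2 - 128 * X ^ 2 * W - 27 * X ^ 2 - 12 * X * W ^ 4
      - 24 * X * W ^ 3 - 24 * X * W ^ 2 - 24 * X * W - 67 * X - 12 * W ^ 4 - 24 * W ^ 3 - 12 * W ^ 2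
      + 12 * W + 24) * hE
  have b0 : (X ^ 2 + X + 4) * b ≠ 0 := fun k => nz (by rw [i2, k]; ring)
  have i4 : (g * y * W ^ 5 / ((W + 1) * M)) ^ 2 = d * (X * (X + 1) * (X ^ 2 + X + 4)) := by
    rw [div_pow, div_eq_iff (by positivity)]
    apply mul_left_cancel₀ (right_ne_zero_of_mul b0)
    rw [i2, show s + 2 = X * (W + 1) by rw [hX]; ring] at i3
    rw [← h5] at i1
    linear_combination b * g ^ 2 * W ^ 10 * hy - d * (J ^ 2 + 12 * J + 144) * W ^ 10 * i1 +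
      d * (W + 1) * (X + 1) * i3
  rcases coreH hd hR hE i4 with ⟨q, k⟩ | k
  · exact hs ⟨q - 2, by rw [hX, k]; push_cast; ring⟩
  · exact left_ne_zero_of_mul b0 k

end Vale.Agent.Q017A
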