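import Vale.Agent.Q017A.Main
import Vale.Agent.Q017A.RowH
import Vale.Agent.Q017.H1b3
import Vale.Agent.Q017B.L

/-!
# Elliptic curves over imaginary quadratic fields with small images mod `3` and mod `5`
-/

set_option linter.all false

namespace Vale.Agent.Q017A

open Vale.Agent.Q017B Vale.Agent.Q017 NumberField IsDedekindDomain

variable {K : Type*} [Field K] [NumberField K] [Algebra.IsQuadraticExtension ℚ K]
  [IsTotallyComplex K]

theorem r75_one : R75 1 := fun X W h => ⟨rfl, Q017D.r75 (by rw [← h, one_mul])⟩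

theorem r75_neg : R75 (-3) := fun X W h => absurd h Q017D.r75_m3

theorem nsq5 : ¬ IsSquare (5 : K) := fun ⟨s, h⟩ =>
  no_root s 0 (-5) 20 (by decide +kernel) (by norm_num) (by push_cast; linear_combination -h)

theorem five_of
    (E : WeierstrassCurve K) [E.IsElliptic] (h3 : ¬ AbsIrr E 3 (Cyc K 3))
    (h5 : ¬ AbsIrr E 5 (Cyc K 5)) : QC E.j ∨ Line E 5 Set.univ := by
  by_cases hq : QC E.j
  · exact Or.inl hq
  right
  by_contra hl
  have h0 : E.j ≠ 0 := fun k => hq (QC.of_rat (q := 0) (by simpa using k))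
  have h1 : E.j ≠ 1728 := fun k => hq (QC.of_rat (q := 1728) (by simpa using k))
  have h2 : E.j ≠ 8000 := fun k => hq (QC.of_rat (q := 8000) (by simpa using k))
  have hf := five_pq h0 h1 h2 nsq5 hl h5
  by_cases l3 : Line E 3 Set.univ
  · obtain ⟨T, hT, eT⟩ := G3 l3
    rw [eT] at hq h0 h1 hf
    rcases hf with ⟨s, y, hc, e, -⟩ | ⟨p, q, c, a1, a2, a3, a4, a5⟩
    · exact hq (h1b3 hT hc e h0 h1)
    · exact hq (rowP3 a1 a2 a3 a4 a5 hT rfl)
  · obtain ⟨J, eJ, hJ⟩ := cube3 l3 h3 h1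
    rw [← eJ] at hq h0 h1 hf
    rcases hf with ⟨s, y, hc, e, -⟩ | ⟨p, q, c, a1, a2, a3, a4, a5⟩
    · rcases hJ with ⟨⟨y, k⟩, -⟩ | ⟨y, k⟩
      · obtain ⟨r, i⟩ := rowH (d := 1) (y := y) (Or.inl rfl) r75_one hc e
          (by push_cast; linear_combination -k)
        exact hq (QC.of_rat i)
      · obtain ⟨r, i⟩ := rowH (d := -3) (y := y) (Or.inr rfl) r75_neg hc e
          (by push_cast; linear_combination -k)
        exact hq (QC.of_rat i)
    · exact hq (rowPC a1 a2 a3 a4 a5 rfl (hJ.imp_left And.left))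

theorem main' (E : WeierstrassCurve K) [E.IsElliptic] (h5 : Line E 5 Set.univ)
    (h3 : ¬ AbsIrr E 3 (Cyc K 3)) (hq : ¬ QC E.j) :
    AbsIrr E 2 (Cyc K 4) ∧
      (3 ≤ {v : HeightOneSpectrum (𝓞 K) | 1 < v.valuation K E.j}.encard ∨ Exc E.j) ∧
      (∀ v : HeightOneSpectrum (𝓞 K), Ideal.absNorm v.asIdeal = 2 → 1 < v.valuation K E.j) ∧
      (Line E 3 Set.univ ∧ Ord E 2 (Cyc K 4) ∨ Ord E 3 Set.univ) := by
  obtain ⟨a, b, c, d⟩ := (main E h5 h3).resolve_left hq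
  refine ⟨a, b, c, ?_⟩
  have h0 : E.j ≠ 0 := fun k => hq (QC.of_rat (q := 0) (by simpa using k))
  have h1 : E.j ≠ 1728 := fun k => hq (QC.of_rat (q := 1728) (by simpa using k))
  by_cases hl : Line E 3 Set.univ
  · exact d.imp_left fun k => ⟨hl, k⟩
  · obtain ⟨u, y, hu, e, ⟨h, k⟩ | h⟩ := xs3 hl h3 h5 h0 h1
    · obtain ⟨-, -, -, -, -, g⟩ := (sideB hu h e).resolve_left hq
      exact Or.inr ⟨k, by exact_mod_cast g⟩
    · exact absurd (rowC hu h e) hq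

theorem full (E : WeierstrassCurve K) [E.IsElliptic] :
    AbsIrr E 3 (Cyc K 3) ∨ AbsIrr E 5 (Cyc K 5) ∨ QCurve E ∨
      (Line E 5 Set.univ ∧ AbsIrr E 2 (Cyc K 4) ∧
      (3 ≤ {v : HeightOneSpectrum (𝓞 K) | 1 < v.valuation K E.j}.encard ∨ Exc E.j) ∧
      (∀ v : HeightOneSpectrum (𝓞 K), Ideal.absNorm v.asIdeal = 2 → 1 < v.valuation K E.j) ∧
      (Line E 3 Set.univ ∧ Ord E 2 (Cyc K 4) ∨ Ord E 3 Set.univ)) := by
  by_cases h3 : AbsIrr E 3 (Cyc K 3)
  · exact Or.inl h3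
  by_cases h5 : AbsIrr E 5 (Cyc K 5)
  · exact Or.inr (Or.inl h5)
  by_cases hq : QC E.j
  · exact Or.inr (Or.inr (Or.inl (qcurve_of_rel E hq)))
  have hl := (five_of E h3 h5).resolve_left hq
  exact Or.inr (Or.inr (Or.inr ⟨hl, main' E hl h3 hq⟩))

end Vale.Agent.Q017A
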