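import Vale.Agent.Q017A.Primes
import Vale.Agent.Q017A.Rel
import Vale.Agent.Q017.Five

/-!
# Choosing a member of the Hesse pencil with large mod `5` image
-/

set_option linter.all false

namespace Vale.Agent.Q017A

open Vale.Agent.Q017B Vale.Agent.Q017 NumberField IsDedekindDomain WithZero Polynomial

section val

variable {K : Type*} [Field K] (w : Valuation K ℤᵐ⁰)

theorem small0 (p : K[X]) : ∀ {δ : ℤᵐ⁰}, δ ≠ 0 →
    ∃ ε ≠ 0, ∀ t, w t < ε → w (p.eval t - p.eval 0) < δ := by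
  induction p using Polynomial.induction_on' with
  | add p q hp hq =>
    intro δ h
    obtain ⟨e1, n1, h1⟩ := hp h
    obtain ⟨e2, n2, h2⟩ := hq h
    refine ⟨min e1 e2, by rcases min_choice e1 e2 with k | k <;> rwa [k], fun t k => ?_⟩
    rw [lt_min_iff] at k
    have := w.map_add_lt (h1 t k.1) (h2 t k.2)
    rw [eval_add, eval_add]
    convert this using 2; ring
  | monomial n a =>
    intro δ h
    rcases n with _ | n
    · exact ⟨1, one_ne_zero, fun t _ => by simpa using zero_lt_iff.2 h⟩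
    by_cases a0 : w a = 0
    · exact ⟨1, one_ne_zero, fun t _ => by simpa [a0] using zero_lt_iff.2 h⟩
    refine ⟨min 1 (δ / w a), by rcases min_choice 1 (δ / w a) with k | k <;> simp [k, h, a0],
      fun t k => ?_⟩
    rw [lt_min_iff, lt_div_iff₀ (zero_lt_iff.2 a0)] at k
    simp only [eval_monomial, pow_succ, mul_zero, sub_zero, map_mul, map_pow]
    calc w a * (w t ^ n * w t) ≤ w a * (1 * w t) := by
          gcongr; exact pow_le_one₀ zero_le k.1.le
      _ < δ := by rw [one_mul, mul_comm]; exact k.2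

theorem small (p : K[X]) (x : K) {δ : ℤᵐ⁰} (h : δ ≠ 0) :
    ∃ ε ≠ 0, ∀ t, w (t - x) < ε → w (p.eval t - p.eval x) < δ := by
  obtain ⟨ε, n, k⟩ := small0 w (taylor x p) h
  exact ⟨ε, n, fun t e => by simpa [taylor_eval] using k _ e⟩

theorem same (p q : K[X]) (x : K) {δ γ : ℤᵐ⁰} (h : δ ≠ 0) (h' : γ ≠ 0) : ∃ ε ≠ 0, ∀ t,
    w (t - x) < ε → w (p.eval t - p.eval x) < δ ∧ w (q.eval t - q.eval x) < γ := by
  obtain ⟨e1, n1, h1⟩ := small w p x h
  obtain ⟨e2, n2, h2⟩ := small w q x h'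
  exact ⟨min e1 e2, by rcases min_choice e1 e2 with k | k <;> rwa [k], fun t k =>
    ⟨h1 t (lt_min_iff.1 k).1, h2 t (lt_min_iff.1 k).2⟩⟩

theorem lt_mul {x y : K} (hx : w x < 1) (hy : y ∈ w.integer) : w (y * x) < 1 := by
  rw [map_mul]
  exact mul_lt_one_of_nonneg_of_lt_one_right hy zero_le hx

/-- a Bezout relation -/
theorem unit_of {x y u v c : K} (hx : w x < 1) (hy : y ∈ w.integer) (hu : u ∈ w.integer)
    (hv : v ∈ w.integer) (hc : w c = 1) (e : c = u * x + v * y) : w y = 1 := by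
  refine le_antisymm hy (not_lt.1 fun k => ?_)
  have := w.map_add_lt (lt_mul w hx hu) (lt_mul w k hv)
  rw [← e, hc] at this
  exact lt_irrefl _ this

theorem no5 (x : ℤᵐ⁰) : x ^ 5 ≠ exp 3 := fun h => by
  have := congrArg log h
  rw [log_pow, log_exp, nsmul_eq_mul] at this
  omega

theorem big_add {t : K} (ht : 1 < w t) {n : ℕ} {x y : K} (hx : w x = w t ^ (n + 1))
    (hy : w y ≤ w t ^ n) : w (x + y) = w t ^ (n + 1) := by
  rw [w.map_add_eq_of_lt_left, hx]
  rw [hx]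
  exact hy.trans_lt (pow_lt_pow_right₀ ht n.lt_succ_self)

theorem big1 {t a b : K} (ht : 1 < w t) (ha : w a = 1) (hb : b ∈ w.integer) :
    w (a * t + b) = w t := by
  simpa using big_add w ht (n := 0) (x := a * t) (y := b) (by simp [ha])
    (by rw [pow_zero]; exact hb)

theorem big2 {t a b c : K} (ht : 1 < w t) (ha : w a = 1) (hb : b ∈ w.integer)
    (hc : c ∈ w.integer) : w (a * t ^ 2 + b * t + c) = w t ^ 2 := by
  have e : a * t ^ 2 + b * t + c = (a * t + b) * t + c := by ring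
  rw [e]
  exact big_add w ht (n := 1) (by rw [map_mul, big1 w ht ha hb, sq])
    (le_trans hc (by simpa using ht.le))

theorem no_Js [CharZero K] (h5 : w 5 = 1) {t : K} (h : t ^ 2 + 5 * t + 5 ≠ 0) :
    w (Js t) ≠ exp 3 := by
  intro e
  have c0 : w (t ^ 2 + 5 * t + 5) ≠ 0 := by simpa using h
  simp only [Js, map_div₀, map_mul, map_pow] at e
  rcases lt_or_ge 1 (w t) with k | k
  · have a1 := big1 w k (a := 1) (b := 5) (map_one w) (ofNat_mem _ _)
    have a2 := big2 w k (a := 1) (b := 0) (c := -5) (map_one w) (zero_mem _)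
      (neg_mem (ofNat_mem _ _))
    have a3 := big2 w k (a := 1) (b := 5) (c := 10) (map_one w) (ofNat_mem _ _) (ofNat_mem _ _)
    have a4 := big2 w k (a := 1) (b := 5) (c := 5) (map_one w) (ofNat_mem _ _) (ofNat_mem _ _)
    simp only [one_mul, zero_mul, add_zero, ← sub_eq_add_neg] at a1 a2 a3 a4
    have t0 : w t ≠ 0 := (zero_lt_one.trans k).ne'
    refine no5 (w t) ?_
    rw [← e, a1, a2, a3, a4]; field_simp
  · have ht : t ∈ w.integer := k
    have i1 : t + 5 ∈ w.integer := add_mem ht (ofNat_mem _ _)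
    have i2 : t ^ 2 - 5 ∈ w.integer := sub_mem (pow_mem ht _) (ofNat_mem _ _)
    have i3 : t ^ 2 + 5 * t + 10 ∈ w.integer := by
      apply_rules [add_mem, mul_mem, pow_mem, ofNat_mem]
    have i4 : t ^ 2 + 5 * t + 5 ∈ w.integer := by
      apply_rules [add_mem, mul_mem, pow_mem, ofNat_mem]
    rcases (show w _ ≤ 1 from i4).lt_or_eq with l | l
    · have a1 := unit_of w l i1 (one_mem _) (neg_mem ht) h5 (by ring)
      have a2 := unit_of w l i2 (sub_mem ht (ofNat_mem _ 2)) (neg_mem (add_mem ht (ofNat_mem _ 3)))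
        h5 (by ring)
      have a3 := unit_of w l i3 (neg_mem (one_mem _)) (one_mem _) h5 (by ring)
      refine no5 (w (t ^ 2 + 5 * t + 5))⁻¹ ?_
      rw [← e, a1, a2, a3]; simp
    · have : exp (3 : ℤ) ≤ 1 := by
        rw [← e, l, one_pow, div_one]
        exact mul_le_one' (mul_le_one' (pow_le_one' i1 _) (pow_le_one' i2 _)) (pow_le_one' i3 _)
      exact absurd (exp_le_exp.1 (this.trans_eq exp_zero.symm)) (by norm_num)

theorem no_Jns [CharZero K] (h2 : w 2 = 1) (h5 : w 5 = 1) {t : K} (h : t ^ 2 + t - 1 ≠ 0) :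
    w (Jns t) ≠ exp 3 := by
  intro e
  have c0 : w (t ^ 2 + t - 1) ≠ 0 := by simpa using h
  have h125 : w 125 = 1 := by rw [show (125 : K) = 5 ^ 3 by norm_num, map_pow, h5, one_pow]
  simp only [Jns, map_div₀, map_mul, map_pow, h125, one_mul] at e
  have n1 : ¬ exp (3 : ℤ) ≤ 1 := fun this =>
    absurd (exp_le_exp.1 (this.trans_eq exp_zero.symm)) (by norm_num)
  rcases lt_or_ge 1 (w t) with k | k
  · have a1 := big1 w k (a := 1) (b := 1) (map_one w) (one_mem _)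
    have a2 := big1 w k (b := 1) h2 (one_mem _)
    have a3 := big2 w k (b := -3) (c := 3) h2 (neg_mem (ofNat_mem _ _)) (ofNat_mem _ _)
    have a4 := big2 w k (a := 1) (b := 1) (c := -1) (map_one w) (one_mem _) (neg_mem (one_mem _))
    simp only [one_mul, neg_mul, ← sub_eq_add_neg] at a1 a2 a3 a4
    have t0 : w t ≠ 0 := (zero_lt_one.trans k).ne'
    refine n1 (le_of_eq ?_)
    rw [← e, a1, a2, a3, a4]; field_simp
  · have ht : t ∈ w.integer := k
    have i1 : t + 1 ∈ w.integer := add_mem ht (one_mem _)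
    have i2 : 2 * t + 1 ∈ w.integer := by apply_rules [add_mem, mul_mem, one_mem, ofNat_mem]
    have i3 : 2 * t ^ 2 - 3 * t + 3 ∈ w.integer := by
      apply_rules [add_mem, sub_mem, mul_mem, pow_mem, ofNat_mem]
    have i4 : t ^ 2 + t - 1 ∈ w.integer := by apply_rules [add_mem, sub_mem, pow_mem, one_mem]
    rcases (show w _ ≤ 1 from i4).lt_or_eq with l | l
    · have a1 := unit_of w l i1 (neg_mem (one_mem _)) ht (map_one w) (by ring)
      have a2 := unit_of w l i2 (neg_mem (ofNat_mem _ 4)) i2 h5 (by ring)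
      have a3 := unit_of w l i3 (u := 1 - 2 * t) (v := t + 2)
        (by apply_rules [sub_mem, mul_mem, one_mem, ofNat_mem]) (add_mem ht (ofNat_mem _ _)) h5
        (by ring)
      refine no5 (w (t ^ 2 + t - 1))⁻¹ ?_
      rw [← e, a1, a2, a3]; simp
    · refine n1 ?_
      rw [← e, l, one_pow, div_one]
      exact mul_le_one' (mul_le_one' i1 (pow_le_one' i2 _)) (pow_le_one' i3 _)

theorem no_R5 [CharZero K] (h2 : w 2 = 1) (h5 : w 5 = 1) (hs : ∀ r, ¬ w (r ^ 2 - 5) < 1) {S : K}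
    (h : S ≠ 0) : ¬ w (R5 S) < 1 := by
  intro e
  have c0 : w S ≠ 0 := by simpa using h
  simp only [R5, map_div₀, map_pow] at e
  rw [div_lt_one₀ (zero_lt_iff.2 c0)] at e
  rcases lt_trichotomy 1 (w S) with k | k | k
  · have a := big2 w k (a := 1) (b := 10) (c := 5) (map_one w) (ofNat_mem _ _) (ofNat_mem _ _)
    rw [one_mul] at a
    rw [a, ← pow_mul] at e
    exact absurd e (not_lt.2 (le_self_pow₀ k.le (by norm_num)))
  · refine hs ((S + 5) / 2) ?_
    have : ((S + 5) / 2) ^ 2 - 5 = (S ^ 2 + 10 * S + 5) / 2 ^ 2 := by ring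
    rw [this, map_div₀, map_pow, h2, one_pow, div_one]
    exact (pow_lt_one_iff_of_nonneg zero_le (by norm_num)).1 (e.trans_eq k.symm)
  · have i : S ∈ w.integer := k.le
    have := unit_of w k (y := S ^ 2 + 10 * S + 5) (u := -(S + 10)) (v := 1)
      (by apply_rules [add_mem, mul_mem, pow_mem, ofNat_mem])
      (neg_mem (add_mem i (ofNat_mem _ _))) (one_mem _) h5 (by ring)
    rw [this, one_pow] at e
    exact absurd (e.trans k) (lt_irrefl _)

theorem root3 [CharZero K] {a b s : K} (h2 : w 2 = 1) (h3 : w 3 = 1) (ha : w a = 1) (hb : w b = 1)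
    (hs : w s = 1) (hd : w (4 * a ^ 3 + 27 * b ^ 2) = 1)
    (e : (3 * s ^ 2 + 4 * a) ^ 3 = 16 * (4 * a ^ 3 + 27 * b ^ 2))
    (hq : ∀ x y g : K, x ∈ w.integer → y ∈ w.integer → w g = 1 → x * y = -3 * g ^ 2 →
      (∃ r, w (r ^ 2 - x) < 1) ∨ ∃ r, w (r ^ 2 - y) < 1) :
    ∃ l, w l = 1 ∧ w (l ^ 4 + 18 * a * l ^ 2 + 108 * b * l - 27 * a ^ 2) < 1 := by
  have ia : a ∈ w.integer := ha.le
  have ib : b ∈ w.integer := hb.le
  have i2 : (2 : K)⁻¹ ∈ w.integer := by rw [Valuation.mem_integer_iff, map_inv₀, h2, inv_one]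
  have key : ∀ s : K, w s = 1 → (3 * s ^ 2 + 4 * a) ^ 3 = 16 * (4 * a ^ 3 + 27 * b ^ 2) →
      (∃ r, w (r ^ 2 - (-s ^ 2 - 4 * a + 8 * b * s⁻¹)) < 1) →
      ∃ l, w l = 1 ∧ w (l ^ 4 + 18 * a * l ^ 2 + 108 * b * l - 27 * a ^ 2) < 1 := by
    rintro s hs e ⟨r, hr⟩
    have s0 : s ≠ 0 := by rintro rfl; simp at hs
    have is : s ∈ w.integer := hs.le
    have is' : s⁻¹ ∈ w.integer := by rw [Valuation.mem_integer_iff, map_inv₀, hs, inv_one]
    have ir : r ∈ w.integer := by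
      have i1 : -s ^ 2 - 4 * a + 8 * b * s⁻¹ ∈ w.integer := by
        apply_rules [add_mem, sub_mem, mul_mem, pow_mem, neg_mem, ofNat_mem]
      have i2 := add_mem (show _ ∈ w.integer from hr.le) i1
      rw [sub_add_cancel, Valuation.mem_integer_iff, map_pow] at i2
      exact (pow_le_one_iff_of_nonneg zero_le two_ne_zero).1 i2
    obtain ⟨x, hx⟩ : ∃ x, x = (r - s) * 2⁻¹ := ⟨_, rfl⟩
    have ix : x ∈ w.integer := hx ▸ mul_mem (sub_mem ir is) i2
    have k : w ((3 * x) ^ 4 + 18 * a * (3 * x) ^ 2 + 108 * b * (3 * x) - 27 * a ^ 2) < 1 := by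
      have := lt_mul w hr (y := 81 * 2⁻¹ * 2⁻¹ *
        (x ^ 2 - s * x + (2 * a + s ^ 2 + 4 * b * s⁻¹) * 2⁻¹))
        (by apply_rules [add_mem, sub_mem, mul_mem, pow_mem, neg_mem, ofNat_mem])
      convert this using 2
      obtain rfl : r = 2 * x + s := by rw [hx]; ring
      field_simp
      linear_combination -6 * e
    refine ⟨3 * x, unit_of w k (mul_mem (ofNat_mem _ _) ix) (neg_mem (one_mem _))
      (v := (3 * x) ^ 3 + 18 * a * (3 * x) + 108 * b) (c := 3 ^ 3 * a ^ 2)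
      (by apply_rules [add_mem, sub_mem, mul_mem, pow_mem, neg_mem, ofNat_mem])
      (by simp [h3, ha]) (by ring), k⟩
  have s0 : s ≠ 0 := by rintro rfl; simp at hs
  have is : s ∈ w.integer := hs.le
  have is' : s⁻¹ ∈ w.integer := by rw [Valuation.mem_integer_iff, map_inv₀, hs, inv_one]
  have g : w (3 * s ^ 2 + 4 * a) = 1 := by
    have := congrArg w e
    rw [map_pow, map_mul, hd, show (16 : K) = 2 ^ 4 by norm_num, map_pow, h2] at this
    exact (pow_eq_one_iff_of_nonneg zero_le three_ne_zero).1 (by simpa using this)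
  rcases hq (-s ^ 2 - 4 * a + 8 * b * s⁻¹) (-(-s) ^ 2 - 4 * a + 8 * b * (-s)⁻¹)
    ((3 * s ^ 2 + 4 * a) / 3)
    (by apply_rules [add_mem, sub_mem, mul_mem, pow_mem, neg_mem, ofNat_mem])
    (by rw [inv_neg]; apply_rules [add_mem, sub_mem, mul_mem, pow_mem, neg_mem, ofNat_mem])
    (by rw [map_div₀, g, h3, div_one]) (by field_simp; linear_combination 4 / 9 * e) with k | k
  · exact key s hs e k
  · exact key (-s) (by rwa [w.map_neg]) (by rw [← e]; ring) k

/-- the numerator polynomial of the pencil -/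
noncomputable def pA (a b : K) : K[X] := C a + C (18 * b) * X - C (18 * a ^ 2) * X ^ 2 -
  C (54 * a * b) * X ^ 3 - C (27 * a ^ 3 + 243 * b ^ 2) * X ^ 4

/-- the denominator polynomial of the pencil -/
noncomputable def pD (a b : K) : K[X] := 1 + C (18 * a) * X ^ 2 + C (108 * b) * X ^ 3 -
  C (27 * a ^ 2) * X ^ 4

theorem pA_ev (a b t : K) : (pA a b).eval t = a + 18 * b * t - 18 * a ^ 2 * t ^ 2 -
    54 * a * b * t ^ 3 - (27 * a ^ 3 + 243 * b ^ 2) * t ^ 4 := by simp [pA]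

theorem pD_ev (a b t : K) : (pD a b).eval t = 1 + 18 * a * t ^ 2 + 108 * b * t ^ 3 -
    27 * a ^ 2 * t ^ 4 := by simp [pD]

theorem le_exp {x : ℤᵐ⁰} (h : x < 1) : x ≤ exp (-1) := by
  rw [← lt_mul_exp_iff_le exp_ne_zero, ← exp_add]
  simpa using h

theorem w_of {x y m : K} (wm : w m = 1) (e : x * m ^ 4 = y) : w x = w y := by
  rw [← e, map_mul, map_pow, wm, one_pow, mul_one]

theorem pole3 [CharZero K] {a b l π : K} (h2 : w 2 = 1) (h3 : w 3 = 1) (ha : w a = 1) (hb : w b = 1)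
    (hd : w (4 * a ^ 3 + 27 * b ^ 2) = 1) (hπ : w π = exp (-1)) (hl : w l = 1)
    (k : w (l ^ 4 + 18 * a * l ^ 2 + 108 * b * l - 27 * a ^ 2) < 1) :
    ∃ x, w x ≤ 1 ∧ w ((pA a b).eval x) = 1 ∧ w ((pD a b).eval x) = exp (-1) := by
  have ia : a ∈ w.integer := ha.le
  have ib : b ∈ w.integer := hb.le
  have F : ∀ l : K, l ∈ w.integer → w (l ^ 4 + 18 * a * l ^ 2 + 108 * b * l - 27 * a ^ 2) < 1 →
      w (l ^ 3 + 9 * a * l + 27 * b) = 1 := fun l il k =>
    unit_of w k (u := -(l ^ 2 + 12 * a)) (v := l ^ 3 + 21 * a * l + 81 * b)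
      (c := 3 ^ 4 * (4 * a ^ 3 + 27 * b ^ 2))
      (by apply_rules [add_mem, sub_mem, mul_mem, pow_mem, neg_mem, ofNat_mem])
      (by apply_rules [add_mem, sub_mem, mul_mem, pow_mem, neg_mem, ofNat_mem])
      (by apply_rules [add_mem, sub_mem, mul_mem, pow_mem, neg_mem, ofNat_mem])
      (by rw [map_mul, map_pow, h3, hd]; simp) (by ring)
  have il : l ∈ w.integer := hl.le
  have f1 : w (2 ^ 2 * (l ^ 3 + 9 * a * l + 27 * b)) = 1 := by
    rw [map_mul, map_pow, h2, F l il k]; simp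
  have f0 : 2 ^ 2 * (l ^ 3 + 9 * a * l + 27 * b) ≠ 0 := fun z => by simp [z] at f1
  have e1 : exp (-1 : ℤ) < 1 := exp_lt_exp.2 (by norm_num)
  obtain ⟨h, eh⟩ : ∃ h, h = π - (l ^ 4 + 18 * a * l ^ 2 + 108 * b * l - 27 * a ^ 2) /
    (2 ^ 2 * (l ^ 3 + 9 * a * l + 27 * b)) := ⟨_, rfl⟩
  have wh : w h ≤ exp (-1) :=
    eh ▸ w.map_sub_le hπ.le (by rw [map_div₀, f1, div_one]; exact le_exp k)
  have ih : h ∈ w.integer := wh.trans e1.le
  have wm : w (l + h) = 1 := by rw [w.map_add_eq_of_lt_left (hl ▸ wh.trans_lt e1), hl]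
  obtain ⟨m, em⟩ : ∃ m, m = l + h := ⟨_, rfl⟩
  rw [← em] at wm
  have im : m ∈ w.integer := wm.le
  have m0 : m ≠ 0 := by rintro rfl; simp at wm
  have D : w (m ^ 4 + 18 * a * m ^ 2 + 108 * b * m - 27 * a ^ 2) = exp (-1) := by
    have e : m ^ 4 + 18 * a * m ^ 2 + 108 * b * m - 27 * a ^ 2 =
        2 ^ 2 * (l ^ 3 + 9 * a * l + 27 * b) * π +
          (6 * l ^ 2 + 18 * a + 4 * l * h + h ^ 2) * h * h := by
      have : (π - h) * (2 ^ 2 * (l ^ 3 + 9 * a * l + 27 * b)) =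
          l ^ 4 + 18 * a * l ^ 2 + 108 * b * l - 27 * a ^ 2 := by
        rw [eh, sub_sub_cancel, div_mul_cancel₀ _ f0]
      rw [em]; linear_combination -this
    have w1 : w (2 ^ 2 * (l ^ 3 + 9 * a * l + 27 * b) * π) = exp (-1) := by
      rw [map_mul, f1, hπ, one_mul]
    rw [e, w.map_add_eq_of_lt_left, w1]
    rw [w1, map_mul]
    calc _ ≤ w ((6 * l ^ 2 + 18 * a + 4 * l * h + h ^ 2) * h) * exp (-1) := by gcongr
      _ < 1 * exp (-1) := by
        gcongr
        · exact exp_pos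
        · exact lt_mul w (wh.trans_lt e1)
            (by apply_rules [add_mem, sub_mem, mul_mem, pow_mem, neg_mem, ofNat_mem])
      _ = _ := one_mul _
  have A := unit_of w (D.trans_lt e1) (y := a * m ^ 4 + 18 * b * m ^ 3 - 18 * a ^ 2 * m ^ 2 -
      54 * a * b * m - (27 * a ^ 3 + 243 * b ^ 2)) (u := m ^ 2 + 3 * a) (v := -3)
      (c := (m ^ 3 + 9 * a * m + 27 * b) ^ 2)
      (by apply_rules [add_mem, sub_mem, mul_mem, pow_mem, neg_mem, ofNat_mem])
      (by apply_rules [add_mem, sub_mem, mul_mem, pow_mem, neg_mem, ofNat_mem])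
      (neg_mem (ofNat_mem _ _)) (by rw [map_pow, F m im (D.trans_lt e1), one_pow]) (by ring)
  refine ⟨m⁻¹, by rw [map_inv₀, wm, inv_one], ?_, ?_⟩
  · exact (w_of w wm (by rw [pA_ev]; field_simp)).trans A
  · exact (w_of w wm (by rw [pD_ev]; field_simp)).trans D

theorem zero3 [CharZero K] {a b l : K} (h2 : w 2 = 1) (h3 : w 3 = 1) (ha : w a = 1) (hb : w b = 1)
    (hd : w (4 * a ^ 3 + 27 * b ^ 2) = 1) (hc : w (a ^ 3 + 9 * b ^ 2) = 1) (hl : w l = 1)
    (k : w (l ^ 4 + 18 * a * l ^ 2 + 108 * b * l - 27 * a ^ 2) < 1) :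
    ∃ x, w x ≤ 1 ∧ w ((pA a b).eval x) < 1 ∧ w ((pD a b).eval x) = 1 := by
  have ia : a ∈ w.integer := ha.le
  have ib : b ∈ w.integer := hb.le
  have il : l ∈ w.integer := hl.le
  obtain ⟨L, eL⟩ : ∃ L, L = -(l ^ 2 + 9 * a) := ⟨_, rfl⟩
  have iL : L ∈ w.integer := by
    rw [eL]; apply_rules [add_mem, sub_mem, mul_mem, pow_mem, neg_mem, ofNat_mem]
  have A := lt_mul w k (y := a * l ^ 4 - 36 * b * l ^ 3 - 54 * a ^ 2 * l ^ 2 - 243 * a ^ 3)
    (by apply_rules [add_mem, sub_mem, mul_mem, pow_mem, neg_mem, ofNat_mem])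
  have wL : w L = 1 := unit_of w A iL (neg_mem (one_mem _))
    (v := a * L ^ 3 + 36 * b * L ^ 2 * l - 72 * a ^ 2 * L * l ^ 2 - 432 * a * b * l ^ 3)
    (c := 2 ^ 4 * 3 ^ 3 * (a ^ 3 + 9 * b ^ 2) * l ^ 4)
    (by apply_rules [add_mem, sub_mem, mul_mem, pow_mem, neg_mem, ofNat_mem])
    (by simp only [map_mul, map_pow, h2, h3, hc, hl]; simp) (by rw [eL]; ring)
  have L0 : L ≠ 0 := by rintro rfl; simp at wL
  have D := unit_of w k (y := L ^ 4 + 72 * a * L ^ 2 * l ^ 2 + 864 * b * L * l ^ 3 -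
      432 * a ^ 2 * l ^ 4) (u := -(l ^ 4 + 90 * a * l ^ 2 - 972 * b * l - 243 * a ^ 2)) (v := 1)
      (c := 2 ^ 4 * 3 ^ 5 * (4 * a ^ 3 + 27 * b ^ 2) * l ^ 2)
      (by apply_rules [add_mem, sub_mem, mul_mem, pow_mem, neg_mem, ofNat_mem])
      (by apply_rules [add_mem, sub_mem, mul_mem, pow_mem, neg_mem, ofNat_mem])
      (one_mem _) (by simp only [map_mul, map_pow, h2, h3, hd, hl]; simp) (by rw [eL]; ring)
  refine ⟨2 * l / L, by rw [map_div₀, map_mul, h2, hl, wL]; simp, ?_, ?_⟩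
  · exact (w_of w wL (by rw [pA_ev]; field_simp; rw [eL]; ring)).trans_lt A
  · exact (w_of w wL (by rw [pD_ev]; field_simp; ring)).trans D

end val

section nf

variable {K : Type*} [Field K] [NumberField K]

theorem approx (S : Finset (HeightOneSpectrum (𝓞 K))) (P : HeightOneSpectrum (𝓞 K) → K → Prop)
    (h : ∀ v ∈ S, ∃ x, v.valuation K x ≤ 1 ∧ ∃ ε ≠ 0, ∀ t, v.valuation K (t - x) < ε → P v t) :
    ∃ t, ∀ v ∈ S, P v t := by
  have h' : ∀ v : HeightOneSpectrum (𝓞 K), ∃ (a : 𝓞 K) (n : ℕ), v ∈ S → ∀ y : 𝓞 K,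
      y - a ∈ v.asIdeal ^ n → P v (algebraMap _ K y) := fun v => by
    by_cases hv : v ∈ S
    · obtain ⟨x, hx, ε, e0, k⟩ := h v hv
      obtain ⟨a, ha⟩ := v.exists_valuation_sub_lt_of_integer hx (Units.mk0 ε e0)
      obtain ⟨n, hn⟩ := exists_exp_neg_natCast_lt e0
      refine ⟨a, n, fun _ y hy => k _ ?_⟩
      rw [← v.intValuation_le_pow_iff_mem, ← v.valuation_of_algebraMap (K := K)] at hy
      have := (v.valuation K).map_add_lt (hy.trans_lt hn) ha
      simpa [Algebra.cast] using this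
    · exact ⟨0, 0, fun k => absurd k hv⟩
  choose a n h' using h'
  obtain ⟨y, hy⟩ := IsDedekindDomain.exists_forall_sub_mem_ideal (s := S) (fun v => v.asIdeal) n
    (fun v _ => v.prime) (fun v _ v' _ k e => k (HeightOneSpectrum.ext e)) (fun v => a v)
  exact ⟨_, fun v hv => h' v hv y (hy v hv)⟩

theorem bad {z : K} (hz : z ≠ 0) : {v : HeightOneSpectrum (𝓞 K) | v.valuation K z ≠ 1}.Finite := by
  obtain ⟨p, q, hq, rfl⟩ := IsFractionRing.div_surjective (A := 𝓞 K) z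
  have p0 : p ≠ 0 := by rintro rfl; simp at hz
  have f : ∀ p : 𝓞 K, p ≠ 0 → {v : HeightOneSpectrum (𝓞 K) | p ∈ v.asIdeal}.Finite := fun p k => by
    simpa using Ideal.finite_factors (I := Ideal.span {p}) (by simpa using k)
  refine ((f p p0).union (f q (nonZeroDivisors.ne_zero hq))).subset fun v hv => ?_
  by_contra k
  simp only [Set.mem_union, Set.mem_setOf_eq, not_or] at k
  exact hv (by rw [map_div₀, (v.valuation_eq_one_iff_notMem (K := K)).2 k.1,
    (v.valuation_eq_one_iff_notMem (K := K)).2 k.2, div_one])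

theorem sq_iff (v : HeightOneSpectrum (𝓞 K)) {a : 𝓞 K} {x : K}
    (h : v.valuation K (algebraMap _ K a - x) < 1) :
    (∃ r, v.valuation K (r ^ 2 - x) < 1) ↔ IsSquare (Ideal.Quotient.mk v.asIdeal a) := by
  have key : ∀ b : 𝓞 K, v.valuation K (algebraMap _ K b ^ 2 - algebraMap _ K a) < 1 ↔
      Ideal.Quotient.mk v.asIdeal a = Ideal.Quotient.mk _ b * Ideal.Quotient.mk _ b := fun b => by
    rw [← map_pow, ← map_sub, ← map_mul, eq_comm, Ideal.Quotient.eq, ← sq]
    exact v.valuation_lt_one_iff_mem _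
  constructor
  · rintro ⟨r, hr⟩
    have h1 := (v.valuation K).map_sub_lt hr h
    rw [sub_sub_sub_cancel_right] at h1
    have ir : v.valuation K r ≤ 1 := by
      have := (v.valuation K).map_add_le h1.le (v.valuation_le_one (K := K) a)
      rw [show r ^ 2 - algebraMap _ K a + (a : K) = r ^ 2 from sub_add_cancel _ _, map_pow] at this
      exact (pow_le_one_iff_of_nonneg zero_le two_ne_zero).1 this
    obtain ⟨b, hb⟩ := v.exists_valuation_sub_lt_of_integer ir 1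
    refine ⟨_, (key b).1 ?_⟩
    have := (v.valuation K).map_add_lt h1 (lt_mul _ hb (add_mem (v.valuation_le_one (K := K) b) ir))
    convert this using 2
    simp only [Algebra.cast]; ring
  · rintro ⟨b, hb⟩
    obtain ⟨b, rfl⟩ := Ideal.Quotient.mk_surjective b
    exact ⟨_, by simpa using (v.valuation K).map_add_lt ((key b).2 hb) h⟩

theorem res_sq (v : HeightOneSpectrum (𝓞 K)) {l : ℕ} (e : Ideal.absNorm v.asIdeal = l)
    (l2 : l % 2 = 1) (l3 : l % 3 = 2) (l5 : l % 5 = 2 ∨ l % 5 = 3) :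
    (∀ r, ¬ v.valuation K (r ^ 2 - 5) < 1) ∧ ∀ x y g : K, x ∈ (v.valuation K).integer →
      y ∈ (v.valuation K).integer → v.valuation K g = 1 → x * y = -3 * g ^ 2 →
      (∃ r, v.valuation K (r ^ 2 - x) < 1) ∨ ∃ r, v.valuation K (r ^ 2 - y) < 1 := by
  classical
  letI := Ideal.Quotient.field v.asIdeal
  haveI : Finite (𝓞 K ⧸ v.asIdeal) := Ideal.finiteQuotientOfFreeOfNeBot _ v.ne_bot
  letI := Fintype.ofFinite (𝓞 K ⧸ v.asIdeal)
  have c : Fintype.card (𝓞 K ⧸ v.asIdeal) = l := by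
    rw [← e, Ideal.absNorm_apply, Submodule.cardQuot_apply, Nat.card_eq_fintype_card]
  have r2 : ringChar (𝓞 K ⧸ v.asIdeal) ≠ 2 := fun k => by
    have := FiniteField.even_card_iff_char_two.1 k
    omega
  haveI : Fact (Nat.Prime 5) := ⟨by norm_num⟩
  have m60 : l % 60 < 60 := Nat.mod_lt _ (by norm_num)
  have t : ∀ p : ℕ, p ∣ 15 → ((ZMod.χ₄ l : ℤ) * l : ZMod p) =
      (ZMod.χ₄ (l % 60 : ℕ) : ℤ) * (l % 60 : ℕ) := fun p hp => by
    rw [(ZMod.natCast_eq_natCast_iff' l (l % 60) p).2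
      (Nat.mod_mod_of_dvd l (hp.trans (by norm_num))).symm,
      (ZMod.natCast_eq_natCast_iff' l (l % 60) 4).2 (Nat.mod_mod_of_dvd l (by norm_num)).symm]
  constructor
  · intro r hr
    have := (sq_iff v (a := 5) (x := 5) (by simp [map_ofNat])).1 ⟨r, hr⟩
    rw [map_ofNat] at this
    have := (FiniteField.isSquare_odd_prime_iff r2 (p := 5) (by norm_num)).1 (by exact_mod_cast this)
    rw [c, t 5 (by norm_num), Ne, quadraticChar_neg_one_iff_not_isSquare] at this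
    interval_cases i : l % 60 <;> first | omega | exact this (by decide +revert)
  · intro x y g hx hy hg k
    obtain ⟨a, ha⟩ := v.exists_valuation_sub_lt_of_integer hx 1
    obtain ⟨b, hb⟩ := v.exists_valuation_sub_lt_of_integer hy 1
    obtain ⟨d, hd⟩ := v.exists_valuation_sub_lt_of_integer hg.le 1
    rw [sq_iff v ha, sq_iff v hb]
    by_contra n
    rw [not_or, ← quadraticChar_neg_one_iff_not_isSquare,
      ← quadraticChar_neg_one_iff_not_isSquare] at n
    have d0 : Ideal.Quotient.mk v.asIdeal d ≠ 0 := fun z => by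
      rw [Ideal.Quotient.eq_zero_iff_mem, ← v.valuation_lt_one_iff_mem (K := K)] at z
      have := (v.valuation K).map_sub_lt z hd
      simp [Algebra.cast, hg] at this
    have e1 : Ideal.Quotient.mk v.asIdeal a * Ideal.Quotient.mk _ b =
        -1 * 3 * Ideal.Quotient.mk _ d ^ 2 := by
      have : Ideal.Quotient.mk v.asIdeal (a * b + 3 * d ^ 2) = 0 := by
        rw [Ideal.Quotient.eq_zero_iff_mem, ← v.valuation_lt_one_iff_mem (K := K)]
        have := (v.valuation K).map_add_lt ((v.valuation K).map_add_lt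
          (lt_mul _ ha (v.valuation_le_one (K := K) b)) (lt_mul _ hb hx)) (lt_mul _ hd
          (mul_mem (ofNat_mem _ 3) (add_mem (v.valuation_le_one (K := K) d) hg.le)))
        convert this using 2
        simp only [Algebra.cast, map_add, map_mul, map_pow, map_ofNat]
        linear_combination k
      simp only [map_add, map_mul, map_pow, map_ofNat] at this
      linear_combination this
    have e2 := congrArg (quadraticChar _) e1
    rw [map_mul, n.1, n.2, map_mul, map_mul, quadraticChar_sq_one' d0, quadraticChar_neg_one r2,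
      show (3 : 𝓞 K ⧸ v.asIdeal) = (3 : ℕ) by norm_num, quadraticChar_odd_prime r2 (by norm_num)
        (fun z => by
          obtain ⟨n, -, hn⟩ := FiniteField.card (𝓞 K ⧸ v.asIdeal) (ringChar _)
          have : 3 ∣ l := by rw [← c, hn, z]; exact dvd_pow_self 3 n.ne_zero
          omega), c, t 3 (by norm_num),
      (ZMod.natCast_eq_natCast_iff' l (l % 60) 4).2 (Nat.mod_mod_of_dvd l (by norm_num)).symm] at e2
    interval_cases i : l % 60 <;> first | omega | exact absurd e2 (by decide)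

end nf

variable {K : Type*} [Field K] [NumberField K] [Algebra.IsQuadraticExtension ℚ K]
  [IsTotallyComplex K]

theorem rowA3 {a b s : K} (h3 : ¬ IsSquare (-3 : K)) (a0 : a ≠ 0) (b0 : b ≠ 0) (s0 : s ≠ 0)
    (d0 : 4 * a ^ 3 + 27 * b ^ 2 ≠ 0) (c0 : a ^ 3 + 9 * b ^ 2 ≠ 0)
    (e : (3 * s ^ 2 + 4 * a) ^ 3 = 16 * (4 * a ^ 3 + 27 * b ^ 2))
    (S : Finset (HeightOneSpectrum (𝓞 K))) : ∃ t j : K, (pD a b).eval t ≠ 0 ∧
      j = 6912 * (pA a b).eval t ^ 3 / ((4 * a ^ 3 + 27 * b ^ 2) * (pD a b).eval t ^ 3) ∧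
      (∀ r, r ≠ 0 → j ≠ R5 r) ∧ (∀ r, r ^ 2 + 5 * r + 5 ≠ 0 → j ≠ Js r) ∧
      (∀ r, r ^ 2 + r - 1 ≠ 0 → j ≠ Jns r) ∧ (∀ n : ℕ, j ≠ n) ∧
      ∀ v ∈ S, v.valuation K (j - 6912 * a ^ 3 / (4 * a ^ 3 + 27 * b ^ 2)) < 1 := by
  classical
  have good : ∀ S : Finset (HeightOneSpectrum (𝓞 K)), ∃ v ∉ S, v.valuation K 2 = 1 ∧
      v.valuation K 5 = 1 ∧ v.valuation K (6912 / (4 * a ^ 3 + 27 * b ^ 2)) = 1 ∧
      (∀ r, ¬ v.valuation K (r ^ 2 - 5) < 1) ∧
      (∃ x, v.valuation K x ≤ 1 ∧ v.valuation K ((pA a b).eval x) = 1 ∧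
        v.valuation K ((pD a b).eval x) = exp (-1)) ∧ ∃ x, v.valuation K x ≤ 1 ∧
        v.valuation K ((pA a b).eval x) < 1 ∧ v.valuation K ((pD a b).eval x) = 1 := fun S => by
    have f := ((((((((bad (K := K) two_ne_zero).union (bad three_ne_zero)).union
      (bad (z := 5) (by norm_num))).union (bad a0)).union (bad b0)).union (bad s0)).union
      (bad d0)).union (bad c0))
    obtain ⟨v, hv, l, -, -, el, l2, l3, l5⟩ := P2 h3 (S ∪ f.toFinset) 0
    simp only [Finset.mem_union, Set.Finite.mem_toFinset, Set.mem_union, Set.mem_setOf_eq, not_or,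
      not_not] at hv
    obtain ⟨hS, ⟨⟨⟨⟨⟨⟨w2, w3⟩, w5⟩, wa⟩, wb⟩, ws⟩, wd⟩, wc⟩ := hv
    obtain ⟨q5, q3⟩ := res_sq v el l2 l3 l5
    obtain ⟨r, wr, k⟩ := root3 _ w2 w3 wa wb ws wd e q3
    obtain ⟨π, hπ⟩ := v.valuation_exists_uniformizer K
    exact ⟨v, hS, w2, w5, by rw [map_div₀, wd, show (6912 : K) = 2 ^ 8 * 3 ^ 3 by norm_num, map_mul,
      map_pow, map_pow, w2, w3]; simp, q5, pole3 _ w2 w3 wa wb wd hπ wr k,
      zero3 _ w2 w3 wa wb wd wc wr k⟩
  obtain ⟨v1, n1, u2, u5, ud, -, ⟨x1, i1, A1, D1⟩, -⟩ := good S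
  obtain ⟨v2, n2, w2, w5, wd, q5, -, ⟨x2, i2, A2, D2⟩⟩ := good (insert v1 S)
  rw [Finset.mem_insert, not_or] at n2
  have q0 : 6912 / (4 * a ^ 3 + 27 * b ^ 2) ≠ 0 := div_ne_zero (by norm_num) d0
  obtain ⟨t, ht⟩ := approx (insert v1 (insert v2 S)) (fun v t =>
    (v = v1 → v.valuation K ((pA a b).eval t) = 1 ∧ v.valuation K ((pD a b).eval t) = exp (-1)) ∧
    (v = v2 → v.valuation K ((pA a b).eval t) < 1 ∧ v.valuation K ((pD a b).eval t) = 1) ∧
    (v ∈ S → v.valuation K ((pA a b ^ 3 - C (a ^ 3) * pD a b ^ 3).eval t) <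
      (v.valuation K (6912 / (4 * a ^ 3 + 27 * b ^ 2)))⁻¹ ∧ v.valuation K ((pD a b).eval t) = 1))
    (fun v hv => by
      simp only [Finset.mem_insert] at hv
      rcases hv with rfl | rfl | hv
      · obtain ⟨ε, e0, k⟩ := same (v.valuation K) (pA a b) (pD a b) x1 one_ne_zero
          (exp_ne_zero (a := (-1 : ℤ)))
        exact ⟨x1, i1, ε, e0, fun t h => ⟨fun _ =>
          ⟨((v.valuation K).map_eq_of_sub_lt (A1 ▸ (k t h).1)).trans A1,
            ((v.valuation K).map_eq_of_sub_lt (D1 ▸ (k t h).2)).trans D1⟩,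
          fun z => absurd z.symm n2.1, fun z => absurd z n1⟩⟩
      · obtain ⟨ε, e0, k⟩ := same (v.valuation K) (pA a b) (pD a b) x2 one_ne_zero one_ne_zero
        exact ⟨x2, i2, ε, e0, fun t h => ⟨fun z => absurd z n2.1, fun _ =>
          ⟨by simpa using (v.valuation K).map_add_lt (k t h).1 A2,
            ((v.valuation K).map_eq_of_sub_lt (D2 ▸ (k t h).2)).trans D2⟩,
          fun z => absurd z n2.2⟩⟩
      · obtain ⟨ε, e0, k⟩ := same (v.valuation K) (pA a b ^ 3 - C (a ^ 3) * pD a b ^ 3) (pD a b) 0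
          (inv_ne_zero ((v.valuation K).ne_zero_iff.2 q0)) one_ne_zero
        have z1 : (pD a b).eval 0 = 1 := by simp [pD_ev]
        have z2 : (pA a b ^ 3 - C (a ^ 3) * pD a b ^ 3).eval 0 = 0 := by simp [pA_ev, z1]
        rw [z1, z2] at k
        exact ⟨0, by simp, ε, e0, fun t h => ⟨fun z => absurd (z ▸ hv) n1,
          fun z => absurd (z ▸ hv) n2.2, fun _ => ⟨by simpa only [sub_zero] using (k t h).1,
            ((v.valuation K).map_eq_of_sub_lt (by simpa using (k t h).2)).trans (map_one _)⟩⟩⟩)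
  obtain ⟨B1, E1⟩ := (ht v1 (by simp)).1 rfl
  obtain ⟨B2, E2⟩ := (ht v2 (by simp)).2.1 rfl
  have D0 : (pD a b).eval t ≠ 0 := fun z => by simp [z] at E2
  obtain ⟨j, hj⟩ : ∃ j, j = 6912 / (4 * a ^ 3 + 27 * b ^ 2) * (pA a b).eval t ^ 3 /
    (pD a b).eval t ^ 3 := ⟨_, rfl⟩
  have j1 : v1.valuation K j = exp 3 := by
    rw [hj, map_div₀, map_mul, ud, map_pow, map_pow, B1, E1, ← exp_nsmul]; simp
  have j2 : v2.valuation K j < 1 := by
    rw [hj, map_div₀, map_mul, wd, map_pow, map_pow, E2, one_mul, one_pow, div_one]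
    exact pow_lt_one₀ zero_le B2 three_ne_zero
  refine ⟨t, j, D0, by rw [hj]; field_simp, fun r k z => no_R5 _ w2 w5 q5 k (z ▸ j2),
    fun r k z => no_Js _ u5 k (z ▸ j1), fun r k z => no_Jns _ u2 u5 k (z ▸ j1), fun n z => ?_,
    fun v hv => ?_⟩
  · have : exp (3 : ℤ) ≤ exp 0 := by
      rw [← j1, z]; exact (natCast_mem (v1.valuation K).integer n)
    exact absurd (exp_le_exp.1 this) (by norm_num)
  · obtain ⟨k1, k2⟩ := (ht v (by simp [hv])).2.2 hv
    have : j - 6912 * a ^ 3 / (4 * a ^ 3 + 27 * b ^ 2) = 6912 / (4 * a ^ 3 + 27 * b ^ 2) *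
        (pA a b ^ 3 - C (a ^ 3) * pD a b ^ 3).eval t / (pD a b).eval t ^ 3 := by
      rw [hj]; simp only [eval_sub, eval_mul, eval_pow, eval_C]; field_simp
    rw [this, map_div₀, map_mul, map_pow (v.valuation K), k2, one_pow, div_one]
    exact (lt_inv_mul_iff₀ (zero_lt_iff.2 ((v.valuation K).ne_zero_iff.2 q0))).1
      (by rw [mul_one]; exact k1)

end Vale.Agent.Q017A
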