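import Vale.Agent.Q017A.Full
import Vale.Agent.Q017A.Sw3
import Vale.Agent.Q017.Sw

/-!
# The remaining curves are congruent to curves with big image
-/

set_option linter.all false

namespace Vale.Agent.Q017A

open Vale.Agent.Q017B Vale.Agent.Q017 NumberField IsDedekindDomain

variable {K : Type*} [Field K] [NumberField K] [Algebra.IsQuadraticExtension ℚ K]
  [IsTotallyComplex K]

theorem sq_of_xs3 {a b u y j : K} (d0 : 4 * a ^ 3 + 27 * b ^ 2 ≠ 0)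
    (hj : j = 6912 * a ^ 3 / (4 * a ^ 3 + 27 * b ^ 2)) (h0 : j ≠ 0) (h1 : j ≠ 1728) (hu : u ≠ 0)
    (e : j = (u ^ 6 + 10 * u ^ 3 + 5) ^ 3 / u ^ 3)
    (h : y ^ 2 = u ^ 4 + 2 * u ^ 3 - u ^ 2 + 10 * u + 25) :
    ∃ s : K, s ≠ 0 ∧ (3 * s ^ 2 + 4 * a) ^ 3 = 16 * (4 * a ^ 3 + 27 * b ^ 2) := by
  obtain ⟨J, hJ⟩ : ∃ J, J = (u ^ 6 + 10 * u ^ 3 + 5) / u := ⟨_, rfl⟩
  obtain ⟨z, hz⟩ : ∃ z, z = y * (u ^ 4 - u ^ 3 + 2 * u ^ 2 + u + 1) / u := ⟨_, rfl⟩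
  have e3 : J ^ 3 = j := by rw [hJ, div_pow, e]
  have ez : z ^ 2 = J ^ 2 + 12 * J + 144 := by
    rw [hz, hJ, div_pow, mul_pow, h]; field_simp; ring
  have ed : j * (4 * a ^ 3 + 27 * b ^ 2) = 6912 * a ^ 3 := by rw [hj, div_mul_cancel₀ _ d0]
  have a0 : a ≠ 0 := by rintro rfl; exact h0 (by rw [hj]; simp)
  have J0 : J ≠ 0 := by rintro rfl; exact h0 (by rw [← e3]; ring)
  have b0 : b ≠ 0 := by
    rintro rfl
    exact mul_ne_zero (sub_ne_zero.2 h1) (pow_ne_zero 3 a0) (by linear_combination ed / 4)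
  have z0 : z ≠ 0 := by
    rintro rfl
    exact h1 (by linear_combination -e3 - (J - 12) * ez)
  have w : (3 * b * J / (a * z)) ^ 2 = 4 * a * (12 - J) / (3 * J) := by
    field_simp
    rw [ez]; subst e3
    linear_combination ed
  refine ⟨3 * b * J / (a * z), by simp [a0, b0, J0, z0], ?_⟩
  rw [w]; subst e3
  field_simp
  linear_combination -16 * ed

theorem ab_ne (E : WeierstrassCurve K) [E.IsElliptic] (hq : ¬ QC E.j) :
    sa E ≠ 0 ∧ sb E ≠ 0 ∧ sa E ^ 3 + 9 * sb E ^ 2 ≠ 0 := by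
  obtain ⟨d0, ej⟩ := j_ab E
  refine ⟨fun z => hq (QC.of_rat (q := 0) ?_), fun z => hq (QC.of_rat (q := 1728) ?_),
    fun z => hq (QC.of_rat (q := 6912) ?_)⟩ <;> rw [ej, div_eq_iff d0] <;> push_cast
  · rw [z]; ring
  · rw [z]; ring
  · linear_combination -20736 * z

theorem link3 (E : WeierstrassCurve K) [E.IsElliptic] (hq : ¬ QC E.j) (h3 : ¬ IsSquare (-3 : K))
    {u y : K} (hu : u ≠ 0) (e : E.j = (u ^ 6 + 10 * u ^ 3 + 5) ^ 3 / u ^ 3)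
    (h : y ^ 2 = u ^ 4 + 2 * u ^ 3 - u ^ 2 + 10 * u + 25) : Link E 3 := fun S => by
  obtain ⟨d0, ej⟩ := j_ab E
  obtain ⟨a0, b0, c0⟩ := ab_ne E hq
  obtain ⟨s, s0, es⟩ := sq_of_xs3 d0 ej (fun k => hq (QC.of_rat (q := 0) (by simpa using k)))
    (fun k => hq (QC.of_rat (q := 1728) (by simpa using k))) hu e h
  obtain ⟨t, j, D0, hj, r5, r6, r7, rn, hS⟩ := rowA3 h3 a0 b0 s0 d0 c0 es S
  rw [pD_ev] at D0
  obtain ⟨E', i, c, ej'⟩ := cong3 E rfl rfl (l := 1) (m := t) (by simpa using D0)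
  obtain rfl : j = E'.j := by rw [hj, ej', pA_ev, pD_ev]; simp
  refine ⟨E', i, Or.inr ?_, c, ej ▸ hS⟩
  by_contra k
  by_cases l5 : Line E' 5 Set.univ
  · obtain ⟨r, r0, er⟩ := G5 l5
    exact r5 r r0 er
  · rcases five (by exact_mod_cast rn 0) (by exact_mod_cast rn 1728) (by exact_mod_cast rn 8000)
      nsq5 l5 k with ⟨r, -, r0, er, -⟩ | ⟨r, -, r0, er, -⟩
    · exact r6 r r0 er
    · exact r7 r r0 er

theorem linked (E : WeierstrassCurve K) [E.IsElliptic] :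
    Big E ∨ QCurve E ∨
      (Line E 5 Set.univ ∧ AbsIrr E 2 (Cyc K 4) ∧
      (3 ≤ {v : HeightOneSpectrum (𝓞 K) | 1 < v.valuation K E.j}.encard ∨ Exc E.j) ∧
      (∀ v : HeightOneSpectrum (𝓞 K), Ideal.absNorm v.asIdeal = 2 → 1 < v.valuation K E.j) ∧
      (Line E 3 Set.univ ∧ Ord E 2 (Cyc K 4) ∨ Ord E 3 Set.univ ∧ Link E 3)) := by
  by_cases h3 : AbsIrr E 3 (Cyc K 3)
  · exact Or.inl (Or.inl h3)
  by_cases h5 : AbsIrr E 5 (Cyc K 5)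
  · exact Or.inl (Or.inr h5)
  by_cases hq : QC E.j
  · exact Or.inr (Or.inl (qcurve_of_rel E hq))
  have hl := (five_of E h3 h5).resolve_left hq
  obtain ⟨a, b, c, d⟩ := main' E hl h3 hq
  refine Or.inr (Or.inr ⟨hl, a, b, c, d.imp_right fun k => ⟨k, ?_⟩⟩)
  obtain ⟨u, y, hu, e, ⟨h, -⟩ | h⟩ := xs3 k.1.1 h3 hl
    (fun k => hq (QC.of_rat (q := 0) (by simpa using k)))
    (fun k => hq (QC.of_rat (q := 1728) (by simpa using k)))
  · exact link3 E hq (nsq3 k.1 h3) hu e h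
  · exact absurd (rowC hu h e) hq

end Vale.Agent.Q017A
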