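import Vale.Agent.Q017A.Exc
import Vale.Agent.Q017D.QC
import Vale.Agent.Q017.Isog
import Vale.Agent.Q017.Tors

/-!
# Elliptic curves with a `5`-isogeny and small mod `3` image over imaginary quadratic fields
-/

set_option linter.all false

namespace Vale.Agent.Q017A

open Vale.Agent.Q017B Vale.Agent.Q017 NumberField IsDedekindDomain

variable {K : Type*} [Field K] [NumberField K] [Algebra.IsQuadraticExtension ℚ K]
  [IsTotallyComplex K]

theorem sideA {n z j : K} (hn : n ≠ 0) (hz : z ≠ 0) (h : n + 5 + 9 / n = 1 / z - z)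
    (hj : j = jA n z) :
    QC j ∨ (¬ IsSquare (j - 1728) ∧ ¬ IsSquare (1728 - j) ∧ (∀ V : K, V ≠ 0 → j ≠ R2 V) ∧
      (3 ≤ {v : HeightOneSpectrum (𝓞 K) | 1 < v.valuation K j}.encard ∨ Exc j) ∧
      (∀ v : HeightOneSpectrum (𝓞 K), Ideal.absNorm v.asIdeal = 2 → 1 < v.valuation K j) ∧
      ∀ v : HeightOneSpectrum (𝓞 K), (2 : 𝓞 K) ∈ v.asIdeal → 1 ≤ v.valuation K j) := by
  subst hj
  by_cases hq : QC (jA n z)
  · exact Or.inl hq
  right
  have hz' : ¬ ∃ q : ℚ, z = q := fun ⟨q, k⟩ => hq (qc_z hn hz h k)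
  have hD : ∀ V : K, V ≠ 0 → jA n z ≠ R2 V := fun V hV k => hq (Q017D.partD hn hz h hV k)
  obtain ⟨c, hc⟩ : ∃ c : K, jA n z - 1728 = n * c ^ 2 :=
    ⟨((729 / (z ^ 2 * n ^ 3)) ^ 2 + 18 * (729 / (z ^ 2 * n ^ 3)) - 27) * z * n / 27, by
      unfold jA R3; field_simp; ring⟩
  have c0 : c ≠ 0 := by
    rintro rfl
    exact hq (QC.of_rat (q := 1728) (by push_cast; linear_combination hc))
  obtain ⟨s1, s2⟩ := nsq hn hz h hz'
  refine ⟨fun ⟨s, k⟩ => s1 ⟨s / c, by field_simp; linear_combination k - hc⟩,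
    fun ⟨s, k⟩ => s2 ⟨s / c, by field_simp; linear_combination k + hc⟩, hD, ?_, twoA hn hz h,
    ord2 hn hz h hz'⟩
  refine (rungeA hn hz h hz').imp_right fun k => ?_
  rcases excA hn hz h k with i | ⟨V, hV, i⟩ | i
  · exact absurd i hq
  · exact absurd i (hD V hV)
  · exact i

theorem main (E : WeierstrassCurve K) [E.IsElliptic] (h5 : Line E 5 Set.univ)
    (h3 : ¬ AbsIrr E 3 (Cyc K 3)) :
    QC E.j ∨ (AbsIrr E 2 (Cyc K 4) ∧
      (3 ≤ {v : HeightOneSpectrum (𝓞 K) | 1 < v.valuation K E.j}.encard ∨ Exc E.j) ∧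
      (∀ v : HeightOneSpectrum (𝓞 K), Ideal.absNorm v.asIdeal = 2 → 1 < v.valuation K E.j) ∧
      (Ord E 2 (Cyc K 4) ∨ Ord E 3 Set.univ)) := by
  by_cases hq : QC E.j
  · exact Or.inl hq
  right
  have h0 : E.j ≠ 0 := fun k => hq (QC.of_rat (q := 0) (by simpa using k))
  have h1 : E.j ≠ 1728 := fun k => hq (QC.of_rat (q := 1728) (by simpa using k))
  have two : ¬ IsSquare (E.j - 1728) → ¬ IsSquare (1728 - E.j) → (∀ V : K, V ≠ 0 → E.j ≠ R2 V) →
      AbsIrr E 2 (Cyc K 4) := fun a b c => by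
    by_contra k
    rcases G2' k with ⟨V, hV, i⟩ | i | i
    · exact c V hV i
    · exact a i
    · exact b i
  by_cases hl : Line E 3 Set.univ
  · obtain ⟨T, hT, eT⟩ := G3 hl
    obtain ⟨S, hS, eS⟩ := G5 h5
    obtain ⟨n, z, hn, hz, h, e⟩ := model hT hS (eT.symm.trans eS) (eT ▸ h0)
    obtain ⟨a, b, c, d, f, g⟩ := (sideA hn hz h (eT.trans e)).resolve_left hq
    exact ⟨two a b c, d, f, Or.inl ⟨two a b c, by exact_mod_cast g⟩⟩
  · obtain ⟨u, y, hu, e, ⟨h, k⟩ | h⟩ := xs3 hl h3 h5 h0 h1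
    · obtain ⟨a, b, c, d, f, g⟩ := (sideB hu h e).resolve_left hq
      exact ⟨two a b c, d.imp_right excB', f, Or.inr ⟨k, by exact_mod_cast g⟩⟩
    · exact absurd (rowC hu h e) hq

end Vale.Agent.Q017A
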