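import Vale.Agent.Q017A.Fam

/-!
# Points of `X₀(15)` with at most two poles
-/

set_option linter.all false

namespace Vale.Agent.Q017A

open Vale.Agent.Q017B NumberField IsDedekindDomain

/-- the exceptional values of `z` -/
def ExZ {K : Type*} [Field K] (z : K) : Prop :=
  (2 * z ^ 2 + 5 * z + 8 = 0 ∨ 8 * z ^ 2 - 5 * z + 2 = 0) ∨
  (2 * z ^ 2 - 5 * z + 4 = 0 ∨ 4 * z ^ 2 + 5 * z + 2 = 0) ∨
  (z ^ 2 - z + 3 = 0 ∨ 3 * z ^ 2 + z + 1 = 0) ∨
  (z ^ 2 + 4 * z + 28 = 0 ∨ 28 * z ^ 2 - 4 * z + 1 = 0) ∨
  (z ^ 2 + 2 * z + 2 = 0 ∨ 2 * z ^ 2 - 2 * z + 1 = 0)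

theorem ExZ.inv {K : Type*} [Field K] {z : K} (hz : z ≠ 0) (h : ExZ (-1 / z)) : ExZ z := by
  rcases h with (k | k) | (k | k) | (k | k) | (k | k) | (k | k) <;> field_simp at k
  · left; right; linear_combination k
  · left; left; linear_combination k
  · right; left; right; linear_combination k
  · right; left; left; linear_combination k
  · right; right; left; right; linear_combination k
  · right; right; left; left; linear_combination k
  · right; right; right; left; right; linear_combination k
  · right; right; right; left; left; linear_combination k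
  · right; right; right; right; right; linear_combination k
  · right; right; right; right; left; linear_combination k

variable {K : Type*} [Field K] [NumberField K] [Algebra.IsQuadraticExtension ℚ K]
  [IsTotallyComplex K]

theorem z_int {n z : K} (hn : n ≠ 0) (hz : z ≠ 0) (h : n + 5 + 9 / n = 1 / z - z)
    (hz' : ¬ ∃ q : ℚ, z = q) (hv : ∀ v : HeightOneSpectrum (𝓞 K), v.valuation K z ≤ 1) :
    ExZ z := by
  obtain ⟨T, N, e⟩ := exists_TN hz'
  have hd := disc_neg hz' e
  have hc : 2 * T ^ 2 + T - N * (T + 5) = 0 ∨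
      (N = 2 * T + 1 ∧ ∃ a : ℚ, N * a ^ 2 + (N + 1) * a - 4 = 0) := by
    obtain ⟨-, a, ha0, ha1, hf⟩ := famA hn hz h hz'
    rcases hf with ⟨-, hf⟩ | ⟨-, hf⟩ | ⟨-, hf⟩ <;> obtain ⟨k1, k2⟩ := cmp hz' hf e
    · left
      have e1 : T = -5 / (a + 1) := by
        field_simp; apply mul_left_cancel₀ ha0; linear_combination k1
      have e2 : N = (9 - a) / (a * (a + 1)) := by field_simp; linear_combination -k2
      rw [e1, e2]; field_simp; ring
    · left
      have e1 : T = (9 - a) / (2 * a) := by
        field_simp; apply mul_left_cancel₀ ha1; linear_combination k1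
      have e2 : N = (9 - a) / (a * (a + 1)) := by field_simp; linear_combination (-1 / 2) * k2
      rw [e1, e2]; field_simp; ring
    · right
      refine ⟨?_, a, by linear_combination (-1 / 2) * k2⟩
      apply mul_left_cancel₀ (mul_ne_zero ha0 ha1)
      linear_combination -k1 - (1 / 2) * k2
  obtain ⟨⟨t, rfl⟩, m, rfl⟩ := int_coeffs hz' e hv
  have hd' : t ^ 2 < 4 * m := by exact_mod_cast hd
  rcases hc with k | ⟨k, a, ha⟩
  · have k' : 2 * t ^ 2 + t - m * (t + 5) = 0 := by exact_mod_cast k
    have : (t + 5) ∣ 45 := ⟨m - 2 * t + 9, by linear_combination k'⟩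
    have h1 := Int.le_of_dvd (by norm_num) this
    have h2 := Int.le_of_dvd (by norm_num) ((neg_dvd).2 this)
    have h3 : (t = -4 ∧ m = 28) ∨ (t = -2 ∧ m = 2) := by
      obtain ⟨s, rfl⟩ : ∃ s, t = s - 5 := ⟨t + 5, by ring⟩
      have h3 : s ≤ 45 := by omega
      have h4 : -45 ≤ s := by omega
      interval_cases s <;> omega
    rcases h3 with ⟨rfl, rfl⟩ | ⟨rfl, rfl⟩ <;> push_cast at e
    · right; right; right; left; left; linear_combination e
    · right; right; right; right; left; linear_combination e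
  · have k' : m = 2 * t + 1 := by exact_mod_cast k
    subst k'
    have h1 : -1 < t := by nlinarith
    have h2 : t < 9 := by nlinarith
    interval_cases t <;> push_cast at ha e
    · exact absurd (by push_cast; linear_combination 4 * ha)
        (not_sq (2 * a + 2) 20 (by decide +kernel))
    · right; right; left; left; linear_combination e
    · exact absurd (by push_cast; linear_combination 20 * ha)
        (not_sq (10 * a + 6) 116 (by decide +kernel))
    · exact absurd (by push_cast; linear_combination 28 * ha)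
        (not_sq (14 * a + 8) 176 (by decide +kernel))
    · exact absurd (by push_cast; linear_combination 36 * ha)
        (not_sq (18 * a + 10) 244 (by decide +kernel))
    · exact absurd (by push_cast; linear_combination 44 * ha)
        (not_sq (22 * a + 12) 320 (by decide +kernel))
    · exact absurd (by push_cast; linear_combination 52 * ha)
        (not_sq (26 * a + 14) 404 (by decide +kernel))
    · exact absurd (by push_cast; linear_combination 60 * ha)
        (not_sq (30 * a + 16) 496 (by decide +kernel))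
    · exact absurd (by push_cast; linear_combination 68 * ha)
        (not_sq (34 * a + 18) 596 (by decide +kernel))

theorem n_int {n z : K} (hn : n ≠ 0) (hz : z ≠ 0) (h : n + 5 + 9 / n = 1 / z - z)
    (hz' : ¬ ∃ q : ℚ, z = q) (hv : ∀ v : HeightOneSpectrum (𝓞 K), v.valuation K n ≤ 1) :
    ExZ z := by
  obtain ⟨hn', a, ha0, ha1, hf⟩ := famA hn hz h hz'
  obtain ⟨T, N, e⟩ := exists_TN hn'
  have hd := disc_neg hn' e
  obtain ⟨⟨t, rfl⟩, m, rfl⟩ := int_coeffs hn' e hv
  have hd' : t ^ 2 < 4 * m := by exact_mod_cast hd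
  have con : 2 * (t : ℚ) ^ 2 + t * m + 9 * t + 5 * m = 0 → (t : ℚ) = -6 := by
    intro k
    have k' : 2 * t ^ 2 + t * m + 9 * t + 5 * m = 0 := by exact_mod_cast k
    have : (t + 5) ∣ 5 := ⟨-(m + 2 * t - 1), by linear_combination k'⟩
    have h1 := Int.le_of_dvd (by norm_num) this
    have h2 := Int.le_of_dvd (by norm_num) ((neg_dvd).2 this)
    have h3 : t = -6 := by
      obtain ⟨s, rfl⟩ : ∃ s, t = s - 5 := ⟨t + 5, by ring⟩
      have h3 : s ≤ 5 := by omega
      have h4 : -5 ≤ s := by omega
      interval_cases s <;> omega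
    exact_mod_cast h3
  rcases hf with ⟨e', hf⟩ | ⟨e', hf⟩ | ⟨e', hf⟩
  · obtain ⟨k1, k2⟩ := cmp hn' (A := a + 1) (B := 5 * a) (C := a * (9 - a)) (by
      rw [e']; push_cast at hf ⊢; linear_combination (a : K) * hf) e
    have e1 : (t : ℚ) = -5 * a / (a + 1) := by field_simp; linear_combination k1
    have e2 : (m : ℚ) = a * (9 - a) / (a + 1) := by field_simp; linear_combination -k2
    have := con (by rw [e1, e2]; field_simp; ring)
    obtain rfl : a = -6 := by rw [this] at k1; linarith
    right; right; right; right; right; push_cast at hf; linear_combination (1 / 15) * hf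
  · obtain ⟨k1, k2⟩ := cmp hn' (A := 2 * (a + 1)) (B := (9 - a) * (a + 1)) (C := 2 * a * (9 - a)) (by
      rw [e']; push_cast at hf ⊢; linear_combination (a : K) * hf) e
    have e1 : (t : ℚ) = (a - 9) / 2 := by
      apply mul_left_cancel₀ ha1; linear_combination (1 / 2) * k1
    have e2 : (m : ℚ) = a * (9 - a) / (a + 1) := by field_simp; linear_combination (-1 / 2) * k2
    have := con (by rw [e1, e2]; field_simp; ring)
    obtain rfl : a = -3 := by linarith
    right; right; right; right; left; push_cast at hf; linear_combination (1 / 12) * hf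
  · obtain ⟨k1, k2⟩ := cmp hn' (A := 4 * (a + 1)) (B := -2 * a ^ 2 + 16 * a + 8)
      (C := 9 * a * (4 - a)) (by
      rw [e']; push_cast at hf ⊢; linear_combination 2 * (a : K) * hf) e
    have e1 : 9 * (t : ℚ) + 2 * m + 18 = 0 := by
      apply mul_left_cancel₀ ha1; linear_combination (9 / 4) * k1 - (1 / 2) * k2
    have e2 : 9 * t + 2 * m + 18 = 0 := by exact_mod_cast e1
    have e3 : (a - 4 - t) ^ 2 = t ^ 2 + 10 * t + 20 := by linear_combination (-1 / 2) * k1
    have h1 : -16 < t := by nlinarith
    have h2 : t < -2 := by nlinarith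
    have h3 : t = -14 ∨ t = -12 ∨ t = -10 ∨ t = -8 ∨ t = -6 ∨ t = -4 := by omega
    rcases h3 with rfl | rfl | rfl | rfl | rfl | rfl <;> push_cast at e3
    · exact absurd (e3.trans (by norm_num)) (not_sq _ 76 (by decide +kernel))
    · exact absurd (e3.trans (by norm_num)) (not_sq _ 44 (by decide +kernel))
    · exact absurd (e3.trans (by norm_num)) (not_sq _ 20 (by decide +kernel))
    · have : (a + 2) * (a + 6) = 0 := by linarith
      rcases mul_eq_zero.1 this with j | j
      · obtain rfl : a = -2 := by linarith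
        right; right; left; left; push_cast at hf; linear_combination (1 / 4) * hf
      · obtain rfl : a = -6 := by linarith
        right; right; left; right; push_cast at hf; linear_combination (1 / 20) * hf
    · nlinarith [sq_nonneg (a - 4 - -6)]
    · nlinarith [sq_nonneg (a - 4 - -4)]

theorem phi_intA {n z : K} (hn : n ≠ 0) (hz : z ≠ 0) (h : n + 5 + 9 / n = 1 / z - z)
    (hz' : ¬ ∃ q : ℚ, z = q) (hv : ∀ v : HeightOneSpectrum (𝓞 K), v.valuation K (n + z) ≤ 1) :
    ExZ z := by
  obtain ⟨-, a, ha0, ha1, hf⟩ := famA hn hz h hz'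
  have a1 : (a : K) + 1 ≠ 0 := by exact_mod_cast ha1
  have a0 : (a : K) ≠ 0 := by exact_mod_cast ha0
  have hφ : ∀ b : ℚ, n = a * z + b → ¬ ∃ q : ℚ, n + z = q := by
    rintro b e ⟨q, hq⟩
    exact hz' ⟨(q - b) / (a + 1), by push_cast; field_simp; linear_combination hq - e⟩
  rcases hf with ⟨e', hf⟩ | ⟨e', hf⟩ | ⟨e', hf⟩
  · have hφ := hφ 0 (by simpa using e')
    have e : (n + z) ^ 2 - (-5 : ℚ) * (n + z) + ((9 - a) * (a + 1) / a : ℚ) = 0 := by
      rw [e']; push_cast at hf ⊢; field_simp; linear_combination ((a : K) + 1) * hf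
    have hd := disc_neg hφ e
    obtain ⟨-, m, hm⟩ := int_coeffs hφ e hv
    obtain ⟨k1, k2⟩ := num_den_dvd (A := -1) (B := 9) (n := m - 8) ha0 (by
      push_cast; rw [← hm]; field_simp; ring)
    have hq : a.den = 1 := by
      have : (a.den : ℤ) ∣ 1 := dvd_neg.1 k1
      exact Nat.dvd_one.1 (by exact_mod_cast this)
    have h1 := Int.le_of_dvd (by norm_num) k2
    have h2 := Int.le_of_dvd (by norm_num) ((neg_dvd).2 k2)
    have ea : a = a.num := (Rat.coe_int_num_of_den_eq_one hq).symm
    generalize a.num = p at *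
    have h3 : -9 ≤ p := by omega
    subst ea
    interval_cases p <;> simp at k2 <;> push_cast at hf hd ha1 <;> norm_num at hd
    · left; right; linear_combination (1 / 9) * hf
    · right; left; left; linear_combination (1 / 3) * hf
    · left; left; linear_combination hf
    · right; left; right; linear_combination (1 / 3) * hf
  · have hφ := hφ (a / 2 - 9 / 2) (by rw [e']; push_cast; ring)
    obtain ⟨T, N, e⟩ := exists_TN hφ
    have hd := disc_neg hφ e
    obtain ⟨k1, k2⟩ := cmp hφ (A := 4 * a) (B := -2 * ((a - 1) * (a - 9)))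
      (C := -5 * ((a - 1) * (a - 9))) (by
        rw [e']; push_cast at hf ⊢; linear_combination 2 * ((a : K) + 1) * hf) e
    obtain ⟨⟨t, rfl⟩, m, rfl⟩ := int_coeffs hφ e hv
    have hd' : t ^ 2 < 4 * m := by exact_mod_cast hd
    have e1 : 5 * (t : ℚ) + 2 * m = 0 := by
      apply mul_left_cancel₀ ha0; linear_combination (5 / 4) * k1 - (1 / 2) * k2
    have e2 : 5 * t + 2 * m = 0 := by exact_mod_cast e1
    have e3 : (a - 5 - t) ^ 2 = (t + 5) ^ 2 - 9 := by linear_combination (-1 / 2) * k1
    have h1 : -10 < t := by nlinarith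
    have h2 : t < 0 := by nlinarith
    have h3 : t = -8 ∨ t = -6 ∨ t = -4 ∨ t = -2 := by omega
    rcases h3 with rfl | rfl | rfl | rfl <;> push_cast at e3
    · obtain rfl : a = -3 := by nlinarith
      right; right; right; right; left; push_cast at hf; linear_combination (1 / 12) * hf
    · nlinarith [sq_nonneg (a - 5 - -6)]
    · nlinarith [sq_nonneg (a - 5 - -4)]
    · obtain rfl : a = 3 := by nlinarith
      right; right; right; right; right; push_cast at hf; linear_combination (1 / 12) * hf
  · have hφ := hφ (a / 2 - 2) (by rw [e']; push_cast; ring)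
    have e : (n + z) ^ 2 - (a / 2 - 5 + 2 / a : ℚ) * (n + z) + (10 - 5 * a / 2 : ℚ) = 0 := by
      rw [e']; push_cast at hf ⊢; field_simp; linear_combination 2 * ((a : K) + 1) * hf
    obtain ⟨⟨t, ht⟩, -⟩ := int_coeffs hφ e hv
    obtain ⟨k1, k2⟩ := num_den_dvd (a := a / 2) (A := 1) (B := 1) (n := t + 5)
      (div_ne_zero ha0 two_ne_zero) (by push_cast; rw [← ht]; field_simp; ring)
    have hq : (a / 2).den = 1 := Nat.dvd_one.1 (by exact_mod_cast k1)
    have ea : a / 2 = (a / 2).num := (Rat.coe_int_num_of_den_eq_one hq).symm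
    rcases Int.isUnit_iff.1 (isUnit_of_dvd_one k2) with j | j <;> rw [j] at ea <;> push_cast at ea
    · obtain rfl : a = 2 := by linarith
      right; right; left; right; push_cast at hf; linear_combination (1 / 4) * hf
    · obtain rfl : a = -2 := by linarith
      right; right; left; left; push_cast at hf; linear_combination (1 / 4) * hf

/-- **points of `X₀(15)` with at most two poles** -/
theorem runge0 {n z : K} (hn : n ≠ 0) (hz : z ≠ 0) (h : n + 5 + 9 / n = 1 / z - z)
    (hz' : ¬ ∃ q : ℚ, z = q) :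
    3 ≤ {v : HeightOneSpectrum (𝓞 K) | 1 < v.valuation K n ∨ 1 < v.valuation K (9 / n)}.encard ∨
      ExZ z := by
  obtain ⟨z5, h5⟩ := w5 hz h
  obtain ⟨n9, h15⟩ := w15 hn h
  have zz : -1 / (-1 / z) = z := by field_simp
  have nn : 9 / (9 / n) = n := by field_simp
  have hz5 : ¬ ∃ q : ℚ, -1 / z = q := by
    rintro ⟨q, hq⟩
    exact hz' ⟨-1 / q, by push_cast; rw [← hq, zz]⟩
  set S := {v : HeightOneSpectrum (𝓞 K) | 1 < v.valuation K n ∨ 1 < v.valuation K (9 / n)} with hS
  by_cases h3 : 3 ≤ S.encard
  · exact Or.inl h3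
  right
  by_contra hE
  obtain ⟨a, ha⟩ : ∃ v : HeightOneSpectrum (𝓞 K), 1 < v.valuation K n := by
    by_contra k
    exact hE (n_int hn hz h hz' fun v => not_lt.1 fun i => k ⟨v, i⟩)
  obtain ⟨b, hb⟩ : ∃ v : HeightOneSpectrum (𝓞 K), 1 < v.valuation K (9 / n) := by
    by_contra k
    exact hE (n_int n9 hz h15 hz' fun v => not_lt.1 fun i => k ⟨v, i⟩)
  obtain ⟨c, hc⟩ : ∃ v : HeightOneSpectrum (𝓞 K), 1 < v.valuation K z := by
    by_contra k
    exact hE (z_int hn hz h hz' fun v => not_lt.1 fun i => k ⟨v, i⟩)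
  obtain ⟨d, hd⟩ : ∃ v : HeightOneSpectrum (𝓞 K), 1 < v.valuation K (1 / z) := by
    by_contra k
    refine hE (ExZ.inv hz (z_int hn z5 h5 hz5 fun v => not_lt.1 fun i => k ⟨v, ?_⟩))
    rwa [neg_div, Valuation.map_neg] at i
  have hab : a ≠ b := by rintro rfl; exact no_both _ 9 ha (by exact_mod_cast hb)
  have hcd : c ≠ d := by rintro rfl; exact no_both _ 1 hc (by exact_mod_cast hd)
  have two : ∀ v ∈ S, v = a ∨ v = b := by
    intro v hv
    by_contra k
    obtain ⟨k1, k2⟩ := not_or.1 k
    exact h3 (three_le (Or.inl ha) (Or.inr hb) hv hab (Ne.symm k1) (Ne.symm k2))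
  have up : ∀ v : HeightOneSpectrum (𝓞 K), 1 < v.valuation K z ∨ 1 < v.valuation K (1 / z) →
      v = a ∨ v = b := fun v k => two v (pole_z _ hz h k)
  have main : ∀ (n : K) (a b : HeightOneSpectrum (𝓞 K)), n + 5 + 9 / n = 1 / z - z →
      (∀ v : HeightOneSpectrum (𝓞 K), 1 < v.valuation K n ∨ 1 < v.valuation K z → v = a ∨ v = b) →
      1 < a.valuation K n → 1 < a.valuation K z → 1 < b.valuation K (9 / n) →
      1 < b.valuation K (1 / z) → ∀ v : HeightOneSpectrum (𝓞 K), v.valuation K (n + z) ≤ 1 := by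
    intro n a b h up k1 k2 k3 k4 v
    by_cases j : v = a
    · subst j
      have e : n + z = 1 / z - 9 / n - 5 := by linear_combination h
      rw [e]
      refine Valuation.map_sub_le _ (Valuation.map_sub_le _ ?_ ?_) (by exact_mod_cast w_nat _ 5)
      · exact not_lt.1 fun i => no_both _ 1 k2 (by exact_mod_cast i)
      · exact not_lt.1 fun i => no_both _ 9 k1 (by exact_mod_cast i)
    · refine Valuation.map_add_le _ (not_lt.1 fun i => ?_) (not_lt.1 fun i => ?_)
      · rcases up v (Or.inl i) with rfl | rfl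
        · exact j rfl
        · exact no_both _ 9 i (by exact_mod_cast k3)
      · rcases up v (Or.inr i) with rfl | rfl
        · exact j rfl
        · exact no_both _ 1 i (by exact_mod_cast k4)
  rcases up c (Or.inl hc) with rfl | rfl <;> rcases up d (Or.inr hd) with rfl | rfl
  · exact absurd rfl hcd
  · exact hE (phi_intA hn hz h hz' (main n c d h
      (fun v i => i.elim (fun i => two v (Or.inl i)) fun i => up v (Or.inl i)) ha hc hb hd))
  · exact hE (phi_intA n9 hz h15 hz' (main (9 / n) c d h15
      (fun v i => (i.elim (fun i => two v (Or.inr i)) fun i => up v (Or.inl i)).symm) hb hc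
      (by rwa [nn]) hd))
  · exact absurd rfl hcd

theorem rungeA {n z : K} (hn : n ≠ 0) (hz : z ≠ 0) (h : n + 5 + 9 / n = 1 / z - z)
    (hz' : ¬ ∃ q : ℚ, z = q) :
    3 ≤ {v : HeightOneSpectrum (𝓞 K) | 1 < v.valuation K (jA n z)}.encard ∨ ExZ z :=
  (runge0 hn hz h hz').imp_left fun k =>
    k.trans (Set.encard_le_encard fun v i => poleA _ hn hz h i)

end Vale.Agent.Q017A
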